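import Mathlib

/-!
One-dimensional facts about the standard normal density and its upper tail.
-/

namespace Vale.Agent.Lib.Helper7.Gauss

open MeasureTheory ProbabilityTheory Set Filter Topology

/-- The standard normal density. -/
noncomputable def gphi (t : ℝ) : ℝ := Real.exp (-(t ^ 2) / 2) / Real.sqrt (2 * Real.pi)

/-- The upper tail of the standard normal law, as an integral of the density. -/
noncomputable def gtail (t : ℝ) : ℝ := ∫ y in Ioi t, gphi y

lemma sqrt_two_pi_pos : 0 < Real.sqrt (2 * Real.pi) :=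
  Real.sqrt_pos.mpr (by positivity)

lemma gphi_eq_pdf (t : ℝ) : gphi t = gaussianPDFReal 0 1 t := by
  unfold gphi gaussianPDFReal
  simp only [NNReal.coe_one, mul_one, sub_zero]
  rw [div_eq_inv_mul]

lemma gphi_eq_pdf' : gphi = gaussianPDFReal 0 1 := funext gphi_eq_pdf

lemma gphi_eq_half (y : ℝ) :
    gphi y = Real.exp (-(1 / 2) * y ^ 2) / Real.sqrt (2 * Real.pi) := by
  unfold gphi
  congr 2
  ring

lemma gphi_pos (t : ℝ) : 0 < gphi t := by
  unfold gphi
  exact div_pos (Real.exp_pos _) sqrt_two_pi_pos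

lemma integrable_gphi : Integrable gphi := by
  rw [gphi_eq_pdf']
  exact integrable_gaussianPDFReal 0 1

lemma hasDerivAt_gphi (t : ℝ) : HasDerivAt gphi (-t * gphi t) t := by
  have h0 : HasDerivAt (fun t : ℝ => t ^ 2) (2 * t) t := by
    simpa using hasDerivAt_pow 2 t
  have h1 : HasDerivAt (fun t : ℝ => -(t ^ 2) / 2) (-(2 * t) / 2) t :=
    (h0.neg).div_const 2
  have h2 : HasDerivAt (fun t : ℝ => Real.exp (-(t ^ 2) / 2) / Real.sqrt (2 * Real.pi))
      (Real.exp (-(t ^ 2) / 2) * (-(2 * t) / 2) / Real.sqrt (2 * Real.pi)) t :=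
    (h1.exp).div_const (Real.sqrt (2 * Real.pi))
  have h3 : gphi = fun t : ℝ => Real.exp (-(t ^ 2) / 2) / Real.sqrt (2 * Real.pi) := rfl
  rw [h3]
  exact h2.congr_deriv (by ring)

lemma continuous_gphi : Continuous gphi :=
  continuous_iff_continuousAt.mpr fun t => (hasDerivAt_gphi t).continuousAt

lemma gtail_eq (t : ℝ) : gtail t = gtail 0 - ∫ y in (0 : ℝ)..t, gphi y := by
  rcases le_total 0 t with h | h
  · have := intervalIntegral.integral_Ioi_sub_Ioi (f := gphi) (μ := volume)
      integrable_gphi.integrableOn h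
    unfold gtail
    linarith
  · have := intervalIntegral.integral_Ioi_sub_Ioi (f := gphi) (μ := volume)
      integrable_gphi.integrableOn h
    rw [intervalIntegral.integral_symm]
    unfold gtail
    linarith

lemma hasDerivAt_gtail (t : ℝ) : HasDerivAt gtail (-gphi t) t := by
  have h1 : gtail = fun t => gtail 0 - ∫ y in (0 : ℝ)..t, gphi y := funext gtail_eq
  rw [h1]
  have h2 : HasDerivAt (fun u => ∫ y in (0 : ℝ)..u, gphi y) (gphi t) t :=
    (continuous_gphi.integral_hasStrictDerivAt 0 t).hasDerivAt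
  have h3 : HasDerivAt (fun t => gtail 0 - ∫ y in (0 : ℝ)..t, gphi y) (0 - gphi t) t :=
    (hasDerivAt_const t (gtail 0)).sub h2
  exact h3.congr_deriv (by ring)

lemma continuous_gtail : Continuous gtail :=
  continuous_iff_continuousAt.mpr fun t => (hasDerivAt_gtail t).continuousAt

lemma gtail_zero : gtail 0 = 1 / 2 := by
  unfold gtail
  have h := integral_gaussian_Ioi (1 / 2)
  simp_rw [gphi_eq_half]
  rw [integral_div, h]
  have h3 : Real.pi / (1 / 2) = 2 * Real.pi := by ring
  rw [h3]
  have := sqrt_two_pi_pos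
  field_simp

lemma gtail_nonneg (t : ℝ) : 0 ≤ gtail t :=
  setIntegral_nonneg measurableSet_Ioi fun y _ => (gphi_pos y).le

lemma gtail_antitone : Antitone gtail := by
  apply antitone_of_deriv_nonpos
  · exact fun t => (hasDerivAt_gtail t).differentiableAt
  · intro t
    rw [(hasDerivAt_gtail t).deriv]
    linarith [gphi_pos t]

lemma tendsto_gphi_atTop : Tendsto gphi atTop (𝓝 0) := by
  have h1 : Tendsto (fun t : ℝ => -(t ^ 2) / 2) atTop atBot := by
    have : Tendsto (fun t : ℝ => t ^ 2 / 2) atTop atTop :=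
      (tendsto_pow_atTop (by norm_num)).atTop_div_const (by norm_num)
    have h := tendsto_neg_atTop_atBot.comp this
    refine h.congr fun t => ?_
    simp [neg_div]
  have h2 : Tendsto (fun t : ℝ => Real.exp (-(t ^ 2) / 2) / Real.sqrt (2 * Real.pi)) atTop
      (𝓝 (0 / Real.sqrt (2 * Real.pi))) :=
    (Real.tendsto_exp_atBot.comp h1).div_const (Real.sqrt (2 * Real.pi))
  rw [zero_div] at h2
  exact h2

lemma integrable_mul_gphi : Integrable (fun y => y * gphi y) := by
  have h := (integrable_mul_exp_neg_mul_sq (b := 1 / 2) (by norm_num)).div_const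
    (Real.sqrt (2 * Real.pi))
  refine h.congr (ae_of_all _ fun y => ?_)
  show y * Real.exp (-(1 / 2) * y ^ 2) / Real.sqrt (2 * Real.pi) = y * gphi y
  rw [gphi_eq_half]
  ring

lemma integral_Ioi_mul_gphi (t : ℝ) : ∫ y in Ioi t, y * gphi y = gphi t := by
  have hd : ∀ x ∈ Ici t, HasDerivAt (fun y => -gphi y) (x * gphi x) x := by
    intro x _
    have h : HasDerivAt (fun y => -gphi y) (-(-x * gphi x)) x := (hasDerivAt_gphi x).neg
    exact h.congr_deriv (by ring)
  have hlim : Tendsto (fun y => -gphi y) atTop (𝓝 0) := by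
    simpa using tendsto_gphi_atTop.neg
  have h := integral_Ioi_of_hasDerivAt_of_tendsto' (f := fun y => -gphi y)
    (f' := fun y => y * gphi y) (a := t) (m := 0) hd integrable_mul_gphi.integrableOn hlim
  rw [h]
  ring

lemma gtail_le_gphi {t : ℝ} (ht : 1 ≤ t) : gtail t ≤ gphi t := by
  rw [← integral_Ioi_mul_gphi t]
  unfold gtail
  apply setIntegral_mono_on integrable_gphi.integrableOn integrable_mul_gphi.integrableOn
    measurableSet_Ioi
  intro y hy
  have hy1 : 1 ≤ y := ht.trans (le_of_lt hy)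
  have := gphi_pos y
  nlinarith

lemma tendsto_gtail_atTop : Tendsto gtail atTop (𝓝 0) := by
  refine tendsto_of_tendsto_of_tendsto_of_le_of_le' tendsto_const_nhds tendsto_gphi_atTop
    (Eventually.of_forall gtail_nonneg) ?_
  filter_upwards [eventually_ge_atTop (1 : ℝ)] with t ht
  exact gtail_le_gphi ht

lemma gaussianReal_Ioi (t : ℝ) : (gaussianReal 0 1).real (Ioi t) = gtail t := by
  rw [Measure.real, gaussianReal_apply_eq_integral 0 one_ne_zero (Ioi t),
    ENNReal.toReal_ofReal]
  · unfold gtail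
    rw [gphi_eq_pdf']
  · exact setIntegral_nonneg measurableSet_Ioi fun y _ => gaussianPDFReal_nonneg 0 1 y

end Vale.Agent.Lib.Helper7.Gauss
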