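import Mathlib
import Vale.Agent.Lib.Helper7.GaussTail

/-!
Calculus for the comparison of the squared normal density with the normal tail.
-/

namespace Vale.Agent.Lib.Helper7.Gauss

open MeasureTheory ProbabilityTheory Set Filter Topology

lemma hasDerivAt_hfun (c t : ℝ) :
    HasDerivAt (fun u => c * gtail u - gphi u ^ 2) (gphi t * (2 * t * gphi t - c)) t := by
  have h1 : HasDerivAt (fun u => c * gtail u) (c * -gphi t) t :=
    (hasDerivAt_gtail t).const_mul c
  have h2 : HasDerivAt (fun u => gphi u ^ 2)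
      (-t * gphi t * gphi t + gphi t * (-t * gphi t)) t := by
    simp only [sq]
    exact (hasDerivAt_gphi t).mul (hasDerivAt_gphi t)
  have h3 : HasDerivAt (fun u => c * gtail u - gphi u ^ 2)
      (c * -gphi t - (-t * gphi t * gphi t + gphi t * (-t * gphi t))) t := h1.sub h2
  exact h3.congr_deriv (by ring)

lemma hasDerivAt_pfun (t : ℝ) :
    HasDerivAt (fun u => 2 * u * gphi u) (2 * gphi t * (1 - t ^ 2)) t := by
  have h1 : HasDerivAt (fun u : ℝ => 2 * u) 2 t := by
    simpa using (hasDerivAt_id t).const_mul (2 : ℝ)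
  have h2 : HasDerivAt (fun u => 2 * u * gphi u) (2 * gphi t + 2 * t * (-t * gphi t)) t :=
    h1.mul (hasDerivAt_gphi t)
  exact h2.congr_deriv (by ring)

lemma pfun_antitoneOn : AntitoneOn (fun u => 2 * u * gphi u) (Ici 1) := by
  apply antitoneOn_of_deriv_nonpos (convex_Ici 1)
  · exact (continuous_iff_continuousAt.mpr fun t => (hasDerivAt_pfun t).continuousAt).continuousOn
  · exact fun t _ => (hasDerivAt_pfun t).differentiableAt.differentiableWithinAt
  · intro t ht
    rw [interior_Ici] at ht
    rw [(hasDerivAt_pfun t).deriv]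
    have h1 : (1 : ℝ) < t := ht
    have h2 : 1 - t ^ 2 ≤ 0 := by nlinarith
    exact mul_nonpos_of_nonneg_of_nonpos (by linarith [gphi_pos t]) h2

lemma pfun_monotoneOn : MonotoneOn (fun u => 2 * u * gphi u) (Icc 0 1) := by
  apply monotoneOn_of_deriv_nonneg (convex_Icc 0 1)
  · exact (continuous_iff_continuousAt.mpr fun t => (hasDerivAt_pfun t).continuousAt).continuousOn
  · exact fun t _ => (hasDerivAt_pfun t).differentiableAt.differentiableWithinAt
  · intro t ht
    rw [interior_Icc] at ht
    rw [(hasDerivAt_pfun t).deriv]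
    have h0 : (0 : ℝ) < t := ht.1
    have h1 : t < 1 := ht.2
    have h2 : 0 ≤ 1 - t ^ 2 := by nlinarith
    exact mul_nonneg (by linarith [gphi_pos t]) h2

lemma continuous_hfun (c : ℝ) : Continuous (fun u => c * gtail u - gphi u ^ 2) :=
  continuous_iff_continuousAt.mpr fun t => (hasDerivAt_hfun c t).continuousAt

lemma tendsto_hfun (c : ℝ) : Tendsto (fun u => c * gtail u - gphi u ^ 2) atTop (𝓝 0) := by
  have h := (tendsto_gtail_atTop.const_mul c).sub (tendsto_gphi_atTop.pow 2)
  simpa using h

/-- If the inequality holds at `t0 ≥ 1`, it holds at every `t ≥ t0`. -/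
lemma key_tail_ineq {c t0 : ℝ} (ht0 : 1 ≤ t0) (h0 : gphi t0 ^ 2 ≤ c * gtail t0) {t : ℝ}
    (ht : t0 ≤ t) : gphi t ^ 2 ≤ c * gtail t := by
  by_cases hp : c ≤ 2 * t * gphi t
  · have hmono : MonotoneOn (fun u => c * gtail u - gphi u ^ 2) (Icc t0 t) := by
      apply monotoneOn_of_deriv_nonneg (convex_Icc t0 t) (continuous_hfun c).continuousOn
      · exact fun x _ => (hasDerivAt_hfun c x).differentiableAt.differentiableWithinAt
      · intro x hx
        rw [interior_Icc] at hx
        rw [(hasDerivAt_hfun c x).deriv]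
        have hx1 : (1 : ℝ) ≤ x := ht0.trans hx.1.le
        have hxt : 2 * t * gphi t ≤ 2 * x * gphi x :=
          pfun_antitoneOn (mem_Ici.mpr hx1) (mem_Ici.mpr (hx1.trans hx.2.le)) hx.2.le
        exact mul_nonneg (gphi_pos x).le (by linarith)
    have := hmono (left_mem_Icc.mpr ht) (right_mem_Icc.mpr ht) ht
    simp only at this
    linarith
  · rw [not_le] at hp
    have ht1 : (1 : ℝ) ≤ t := ht0.trans ht
    have hanti : AntitoneOn (fun u => c * gtail u - gphi u ^ 2) (Ici t) := by
      apply antitoneOn_of_deriv_nonpos (convex_Ici t) (continuous_hfun c).continuousOn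
      · exact fun x _ => (hasDerivAt_hfun c x).differentiableAt.differentiableWithinAt
      · intro x hx
        rw [interior_Ici] at hx
        rw [(hasDerivAt_hfun c x).deriv]
        have hxt : t ≤ x := le_of_lt hx
        have hpx : 2 * x * gphi x ≤ 2 * t * gphi t :=
          pfun_antitoneOn (mem_Ici.mpr ht1) (mem_Ici.mpr (ht1.trans hxt)) hxt
        exact mul_nonpos_of_nonneg_of_nonpos (gphi_pos x).le (by linarith)
    have hle : (0 : ℝ) ≤ c * gtail t - gphi t ^ 2 := by
      refine le_of_tendsto (tendsto_hfun c) ?_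
      filter_upwards [eventually_ge_atTop t] with u hu
      exact hanti (mem_Ici.mpr le_rfl) (mem_Ici.mpr hu) hu
    linarith

end Vale.Agent.Lib.Helper7.Gauss
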