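import Mathlib

/-!
# P226: the sum of squared Gaussian first moments of a family of sets
-/

namespace Vale.Agent.Lib.Helper7.Gauss

open MeasureTheory ProbabilityTheory

/-- The sum over the cells `A i` of the squared Euclidean norms of the Gaussian first moments
`∫_{A i} x dγ`, where `γ` is the standard Gaussian measure of `R^d`. -/
noncomputable def momentSum {d k : ℕ} (A : Fin k → Set (EuclideanSpace ℝ (Fin d))) : ℝ :=
  ∑ i, ‖∫ x in A i, x ∂(stdGaussian (EuclideanSpace ℝ (Fin d)))‖ ^ 2

end Vale.Agent.Lib.Helper7.Gauss
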