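import Mathlib
import Vale.Agent.Lib.Helper7.GaussTail

/-!
First moments of subsets of Gaussian space: the half-space (level one) bound.
-/

namespace Vale.Agent.Lib.Helper7.Gauss

open MeasureTheory ProbabilityTheory Set Filter Topology

lemma integral_max_sub (t : ℝ) :
    ∫ y, max (y - t) 0 ∂(gaussianReal 0 1) = gphi t - t * gtail t := by
  rw [integral_gaussianReal_eq_integral_smul one_ne_zero]
  have h : ∀ y : ℝ, gaussianPDFReal 0 1 y • max (y - t) 0
      = (Ioi t).indicator (fun y => y * gphi y - t * gphi y) y := by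
    intro y
    rw [← gphi_eq_pdf]
    by_cases hy : t < y
    · rw [indicator_of_mem (mem_Ioi.mpr hy), max_eq_left (by linarith), smul_eq_mul]
      ring
    · rw [indicator_of_notMem (by simpa using hy), max_eq_right (by linarith [not_lt.mp hy])]
      simp
  simp_rw [h]
  rw [integral_indicator measurableSet_Ioi,
    integral_sub integrable_mul_gphi.integrableOn (integrable_gphi.const_mul t).integrableOn,
    integral_const_mul, integral_Ioi_mul_gphi]
  rfl

lemma map_inner_stdGaussian {d : ℕ} (v : EuclideanSpace ℝ (Fin d)) (hv : ‖v‖ = 1) :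
    (stdGaussian (EuclideanSpace ℝ (Fin d))).map (innerSL ℝ v) = gaussianReal 0 1 := by
  rw [IsGaussian.map_eq_gaussianReal, integral_strongDual_stdGaussian,
    variance_dual_stdGaussian, innerSL_apply_norm, hv]
  simp

lemma inner_setIntegral_le {d : ℕ} {A : Set (EuclideanSpace ℝ (Fin d))}
    (v : EuclideanSpace ℝ (Fin d)) (hv : ‖v‖ = 1) (t : ℝ) :
    inner ℝ v (∫ x in A, x ∂(stdGaussian (EuclideanSpace ℝ (Fin d))))
      ≤ gphi t - t * gtail t + t * (stdGaussian (EuclideanSpace ℝ (Fin d))).real A := by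
  have hint : Integrable (fun x : EuclideanSpace ℝ (Fin d) => x)
      (stdGaussian (EuclideanSpace ℝ (Fin d))) := IsGaussian.integrable_fun_id
  have hL : Integrable (fun x : EuclideanSpace ℝ (Fin d) => inner ℝ v x)
      (stdGaussian (EuclideanSpace ℝ (Fin d))) := hint.const_inner v
  have hLt : Integrable (fun x : EuclideanSpace ℝ (Fin d) => inner ℝ v x - t)
      (stdGaussian (EuclideanSpace ℝ (Fin d))) := hL.sub (integrable_const t)
  have hpos : Integrable (fun x : EuclideanSpace ℝ (Fin d) => max (inner ℝ v x - t) 0)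
      (stdGaussian (EuclideanSpace ℝ (Fin d))) := hLt.pos_part
  rw [← integral_inner hint.integrableOn v]
  have e1 : ∫ x in A, inner ℝ v x ∂(stdGaussian (EuclideanSpace ℝ (Fin d)))
      = ∫ x in A, (inner ℝ v x - t) ∂(stdGaussian (EuclideanSpace ℝ (Fin d)))
        + t * (stdGaussian (EuclideanSpace ℝ (Fin d))).real A := by
    rw [integral_sub hL.integrableOn (integrable_const t), setIntegral_const, smul_eq_mul]
    ring
  have e2 : ∫ x in A, (inner ℝ v x - t) ∂(stdGaussian (EuclideanSpace ℝ (Fin d)))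
      ≤ ∫ x in A, max (inner ℝ v x - t) 0 ∂(stdGaussian (EuclideanSpace ℝ (Fin d))) :=
    integral_mono hLt.integrableOn hpos.integrableOn fun x => le_max_left _ _
  have e3 : ∫ x in A, max (inner ℝ v x - t) 0 ∂(stdGaussian (EuclideanSpace ℝ (Fin d)))
      ≤ ∫ x, max (inner ℝ v x - t) 0 ∂(stdGaussian (EuclideanSpace ℝ (Fin d))) :=
    setIntegral_le_integral hpos (ae_of_all _ fun x => le_max_right _ _)
  have e4 : ∫ x, max (inner ℝ v x - t) 0 ∂(stdGaussian (EuclideanSpace ℝ (Fin d)))
      = ∫ y, max (y - t) 0 ∂((stdGaussian (EuclideanSpace ℝ (Fin d))).map (innerSL ℝ v)) := by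
    rw [integral_map (innerSL ℝ v).continuous.measurable.aemeasurable
      (by fun_prop)]
    simp [innerSL_apply_apply]
  rw [map_inner_stdGaussian v hv, integral_max_sub] at e4
  linarith

lemma norm_setIntegral_le_gphi {d : ℕ} {A : Set (EuclideanSpace ℝ (Fin d))} (t : ℝ)
    (hat : (stdGaussian (EuclideanSpace ℝ (Fin d))).real A = gtail t) :
    ‖∫ x in A, x ∂(stdGaussian (EuclideanSpace ℝ (Fin d)))‖ ≤ gphi t := by
  by_cases h0 : (∫ x in A, x ∂(stdGaussian (EuclideanSpace ℝ (Fin d)))) = 0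
  · rw [h0, norm_zero]
    exact (gphi_pos t).le
  · have hn : 0 < ‖∫ x in A, x ∂(stdGaussian (EuclideanSpace ℝ (Fin d)))‖ :=
      norm_pos_iff.mpr h0
    have h := inner_setIntegral_le (A := A)
      ((‖∫ x in A, x ∂(stdGaussian (EuclideanSpace ℝ (Fin d)))‖)⁻¹ •
        ∫ x in A, x ∂(stdGaussian (EuclideanSpace ℝ (Fin d))))
      (by rw [norm_smul, norm_inv, norm_norm]; exact inv_mul_cancel₀ hn.ne') t
    rw [real_inner_smul_left, real_inner_self_eq_norm_sq, hat] at h
    have e : (‖∫ x in A, x ∂(stdGaussian (EuclideanSpace ℝ (Fin d)))‖)⁻¹ *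
        ‖∫ x in A, x ∂(stdGaussian (EuclideanSpace ℝ (Fin d)))‖ ^ 2
        = ‖∫ x in A, x ∂(stdGaussian (EuclideanSpace ℝ (Fin d)))‖ := by
      field_simp
    rw [e] at h
    linarith

lemma gtail_neg (t : ℝ) : gtail (-t) = 1 - gtail t := by
  rw [gtail_eq (-t), gtail_eq t, gtail_zero]
  have h : ∫ y in (0 : ℝ)..(-t), gphi y = -∫ y in (0 : ℝ)..t, gphi y := by
    have h1 := intervalIntegral.integral_comp_neg (a := 0) (b := t) gphi
    have h2 : ∀ y : ℝ, gphi (-y) = gphi y := by
      intro y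
      unfold gphi
      rw [neg_sq]
    simp_rw [h2] at h1
    rw [neg_zero] at h1
    rw [h1, intervalIntegral.integral_symm]
  rw [h]
  ring

lemma exists_gtail_eq {a : ℝ} (h0 : 0 < a) (h1 : a < 1) : ∃ t, gtail t = a := by
  have hev : ∀ᶠ t in atTop, gtail t < min a (1 - a) :=
    (tendsto_order.1 tendsto_gtail_atTop).2 _ (lt_min h0 (by linarith))
  obtain ⟨M, hM0, hM⟩ := (hev.and (eventually_ge_atTop (0 : ℝ))).exists.imp
    fun M h => And.intro h.2 h.1
  have hMa : gtail M < a := lt_of_lt_of_le hM (min_le_left _ _)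
  have hMa' : gtail M < 1 - a := lt_of_lt_of_le hM (min_le_right _ _)
  have hivt := intermediate_value_Icc' (show -M ≤ M by linarith)
    continuous_gtail.continuousOn
  have hmem : a ∈ Icc (gtail M) (gtail (-M)) := by
    rw [gtail_neg]
    constructor <;> linarith
  obtain ⟨t, _, ht⟩ := hivt hmem
  exact ⟨t, ht⟩

end Vale.Agent.Lib.Helper7.Gauss
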