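import Mathlib
import Vale.Agent.Lib.Helper7.GaussTail

/-!
Numerical bounds for the normal density and the normal tail.
-/

namespace Vale.Agent.Lib.Helper7.Gauss

open MeasureTheory ProbabilityTheory Set Filter Topology

lemma exp_neg_bound {u : ℝ} (h0 : 0 ≤ u) (h1 : u ≤ 1) :
    |Real.exp (-u) - (1 - u + u ^ 2 / 2 - u ^ 3 / 6 + u ^ 4 / 24)| ≤ u ^ 5 / 100 := by
  have h := Real.exp_bound (x := -u) (by rw [abs_neg, abs_of_nonneg h0]; exact h1)
    (n := 5) (by norm_num)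
  have hs : ∑ m ∈ Finset.range 5, (-u) ^ m / (m.factorial : ℝ)
      = 1 - u + u ^ 2 / 2 - u ^ 3 / 6 + u ^ 4 / 24 := by
    simp [Finset.sum_range_succ, Nat.factorial]
    ring
  rw [hs, abs_neg, abs_of_nonneg h0] at h
  have he : u ^ 5 * (((Nat.succ 5 : ℕ) : ℝ) / (((Nat.factorial 5 : ℕ) : ℝ) * ((5 : ℕ) : ℝ)))
      = u ^ 5 / 100 := by
    simp [Nat.factorial]
    ring
  rw [he] at h
  exact h

lemma exp_neg_le_poly {u : ℝ} (h0 : 0 ≤ u) (h1 : u ≤ 1) :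
    Real.exp (-u) ≤ 1 - u + u ^ 2 / 2 - u ^ 3 / 6 + u ^ 4 / 24 + u ^ 5 / 100 := by
  have h := (abs_le.mp (exp_neg_bound h0 h1)).2
  linarith

lemma exp_neg_ge_poly {u : ℝ} (h0 : 0 ≤ u) (h1 : u ≤ 1) :
    1 - u + u ^ 2 / 2 - u ^ 3 / 6 + u ^ 4 / 24 - u ^ 5 / 100 ≤ Real.exp (-u) := by
  have h := (abs_le.mp (exp_neg_bound h0 h1)).1
  linarith

/-- The integrand bound polynomial (upper). -/
noncomputable def qup (y : ℝ) : ℝ :=
  1 - y ^ 2 / 2 + y ^ 4 / 8 - y ^ 6 / 48 + y ^ 8 / 384 + y ^ 10 / 3200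

/-- Its antiderivative vanishing at zero. -/
noncomputable def rup (y : ℝ) : ℝ :=
  y - y ^ 3 / 6 + y ^ 5 / 40 - y ^ 7 / 336 + y ^ 9 / 3456 + y ^ 11 / 35200

/-- The integrand bound polynomial (lower). -/
noncomputable def qlo (y : ℝ) : ℝ :=
  1 - y ^ 2 / 2 + y ^ 4 / 8 - y ^ 6 / 48 + y ^ 8 / 384 - y ^ 10 / 3200

/-- Its antiderivative vanishing at zero. -/
noncomputable def rlo (y : ℝ) : ℝ :=
  y - y ^ 3 / 6 + y ^ 5 / 40 - y ^ 7 / 336 + y ^ 9 / 3456 - y ^ 11 / 35200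

lemma hasDerivAt_mono (n : ℕ) (c y : ℝ) :
    HasDerivAt (fun x : ℝ => x ^ (n + 1) / c) ((n + 1) * y ^ n / c) y := by
  have h := (hasDerivAt_pow (n + 1) y).div_const c
  simpa using h

lemma hasDerivAt_rup (y : ℝ) : HasDerivAt rup (qup y) y := by
  have h1 : HasDerivAt (fun x : ℝ => x) 1 y := hasDerivAt_id y
  have h3 := hasDerivAt_mono 2 6 y
  have h5 := hasDerivAt_mono 4 40 y
  have h7 := hasDerivAt_mono 6 336 y
  have h9 := hasDerivAt_mono 8 3456 y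
  have h11 := hasDerivAt_mono 10 35200 y
  have h : HasDerivAt rup (1 - (2 + 1) * y ^ 2 / 6 + (4 + 1) * y ^ 4 / 40
      - (6 + 1) * y ^ 6 / 336 + (8 + 1) * y ^ 8 / 3456 + (10 + 1) * y ^ 10 / 35200) y :=
    ((((h1.sub h3).add h5).sub h7).add h9).add h11
  exact h.congr_deriv (by unfold qup; ring)

lemma hasDerivAt_rlo (y : ℝ) : HasDerivAt rlo (qlo y) y := by
  have h1 : HasDerivAt (fun x : ℝ => x) 1 y := hasDerivAt_id y
  have h3 := hasDerivAt_mono 2 6 y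
  have h5 := hasDerivAt_mono 4 40 y
  have h7 := hasDerivAt_mono 6 336 y
  have h9 := hasDerivAt_mono 8 3456 y
  have h11 := hasDerivAt_mono 10 35200 y
  have h : HasDerivAt rlo (1 - (2 + 1) * y ^ 2 / 6 + (4 + 1) * y ^ 4 / 40
      - (6 + 1) * y ^ 6 / 336 + (8 + 1) * y ^ 8 / 3456 - (10 + 1) * y ^ 10 / 35200) y :=
    ((((h1.sub h3).add h5).sub h7).add h9).sub h11
  exact h.congr_deriv (by unfold qlo; ring)

lemma continuous_qup : Continuous qup := by unfold qup; fun_prop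

lemma continuous_qlo : Continuous qlo := by unfold qlo; fun_prop

lemma continuous_expsq : Continuous (fun y : ℝ => Real.exp (-(y ^ 2) / 2)) := by fun_prop

lemma integral_qup (t : ℝ) : ∫ y in (0 : ℝ)..t, qup y = rup t := by
  rw [intervalIntegral.integral_eq_sub_of_hasDerivAt (fun y _ => hasDerivAt_rup y)
    (continuous_qup.intervalIntegrable 0 t)]
  simp [rup]

lemma integral_qlo (t : ℝ) : ∫ y in (0 : ℝ)..t, qlo y = rlo t := by
  rw [intervalIntegral.integral_eq_sub_of_hasDerivAt (fun y _ => hasDerivAt_rlo y)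
    (continuous_qlo.intervalIntegrable 0 t)]
  simp [rlo]

lemma expsq_le_qup {y : ℝ} (h : y ^ 2 ≤ 2) : Real.exp (-(y ^ 2) / 2) ≤ qup y := by
  have h' := exp_neg_le_poly (u := y ^ 2 / 2) (by positivity) (by linarith)
  have e : -(y ^ 2) / 2 = -(y ^ 2 / 2) := by ring
  rw [e]
  unfold qup
  calc Real.exp (-(y ^ 2 / 2)) ≤ _ := h'
    _ = _ := by ring

lemma qlo_le_expsq {y : ℝ} (h : y ^ 2 ≤ 2) : qlo y ≤ Real.exp (-(y ^ 2) / 2) := by
  have h' := exp_neg_ge_poly (u := y ^ 2 / 2) (by positivity) (by linarith)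
  have e : -(y ^ 2) / 2 = -(y ^ 2 / 2) := by ring
  rw [e]
  unfold qlo
  calc _ = _ := by ring
    _ ≤ Real.exp (-(y ^ 2 / 2)) := h'

lemma integral_expsq_le {t : ℝ} (h0 : 0 ≤ t) (h1 : t ^ 2 ≤ 2) :
    ∫ y in (0 : ℝ)..t, Real.exp (-(y ^ 2) / 2) ≤ rup t := by
  rw [← integral_qup t]
  apply intervalIntegral.integral_mono_on h0 (continuous_expsq.intervalIntegrable 0 t)
    (continuous_qup.intervalIntegrable 0 t)
  intro y hy
  apply expsq_le_qup
  have : y ^ 2 ≤ t ^ 2 := pow_le_pow_left₀ hy.1 hy.2 2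
  linarith

lemma le_integral_expsq {t : ℝ} (h0 : 0 ≤ t) (h1 : t ^ 2 ≤ 2) :
    rlo t ≤ ∫ y in (0 : ℝ)..t, Real.exp (-(y ^ 2) / 2) := by
  rw [← integral_qlo t]
  apply intervalIntegral.integral_mono_on h0 (continuous_qlo.intervalIntegrable 0 t)
    (continuous_expsq.intervalIntegrable 0 t)
  intro y hy
  apply qlo_le_expsq
  have : y ^ 2 ≤ t ^ 2 := pow_le_pow_left₀ hy.1 hy.2 2
  linarith

lemma gtail_eq_expsq (t : ℝ) :
    gtail t = 1 / 2 - (∫ y in (0 : ℝ)..t, Real.exp (-(y ^ 2) / 2)) / Real.sqrt (2 * Real.pi) := by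
  rw [gtail_eq, gtail_zero]
  congr 1
  unfold gphi
  rw [intervalIntegral.integral_div]

lemma gtail_ge_of {t : ℝ} (h0 : 0 ≤ t) (h1 : t ^ 2 ≤ 2) :
    1 / 2 - rup t / Real.sqrt (2 * Real.pi) ≤ gtail t := by
  rw [gtail_eq_expsq]
  have := integral_expsq_le h0 h1
  have h2 := div_le_div_of_nonneg_right this sqrt_two_pi_pos.le
  linarith

lemma gtail_le_of {t : ℝ} (h0 : 0 ≤ t) (h1 : t ^ 2 ≤ 2) :
    gtail t ≤ 1 / 2 - rlo t / Real.sqrt (2 * Real.pi) := by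
  rw [gtail_eq_expsq]
  have := le_integral_expsq h0 h1
  have h2 := div_le_div_of_nonneg_right this sqrt_two_pi_pos.le
  linarith

lemma sqrt_two_pi_gt : (25066 : ℝ) / 10000 < Real.sqrt (2 * Real.pi) := by
  apply Real.lt_sqrt_of_sq_lt
  have := Real.pi_gt_d6
  norm_num at this ⊢
  linarith

lemma sqrt_two_pi_lt : Real.sqrt (2 * Real.pi) < (25067 : ℝ) / 10000 := by
  rw [Real.sqrt_lt' (by norm_num)]
  have := Real.pi_lt_d6
  norm_num at this ⊢
  linarith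

lemma gphi_sq (t : ℝ) : gphi t ^ 2 = Real.exp (-(t ^ 2)) / (2 * Real.pi) := by
  unfold gphi
  rw [div_pow, Real.sq_sqrt (by positivity), ← Real.exp_nat_mul]
  congr 2
  push_cast
  ring

end Vale.Agent.Lib.Helper7.Gauss
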