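import Mathlib
import Vale.Agent.Lib.Helper7.GaussTail
import Vale.Agent.Lib.Helper7.GaussMoment
import Vale.Agent.Lib.Helper7.GaussCalc
import Vale.Agent.Lib.Helper7.GaussNum

/-!
Sets of small Gaussian measure: squared first moment at most `9 / (8 π)` times the measure.
-/

namespace Vale.Agent.Lib.Helper7.Gauss

open MeasureTheory ProbabilityTheory Set Filter Topology

lemma gtail_t0_ge : (1433 : ℝ) / 10000 ≤ gtail (1065 / 1000) := by
  have h := gtail_ge_of (t := 1065 / 1000) (by norm_num) (by norm_num)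
  have hr : rup (1065 / 1000) ≤ 8939 / 10000 := by
    unfold rup
    norm_num
  have h1 : rup (1065 / 1000) / Real.sqrt (2 * Real.pi)
      ≤ (8939 / 10000) / Real.sqrt (2 * Real.pi) :=
    div_le_div_of_nonneg_right hr sqrt_two_pi_pos.le
  have h2 : ((8939 : ℝ) / 10000) / Real.sqrt (2 * Real.pi) ≤ (8939 / 10000) / (25066 / 10000) :=
    div_le_div_of_nonneg_left (by norm_num) (by norm_num) sqrt_two_pi_gt.le
  have h3 : (1433 : ℝ) / 10000 ≤ 1 / 2 - (8939 / 10000) / (25066 / 10000) := by norm_num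
  linarith

lemma exp_neg_t0sq_le : Real.exp (-(((1065 : ℝ) / 1000) ^ 2)) ≤ 3218 / 10000 := by
  have h := Real.sum_le_exp_of_nonneg (x := ((1065 : ℝ) / 1000) ^ 2) (by positivity) 9
  have h2 : (31076 : ℝ) / 10000
      ≤ ∑ i ∈ Finset.range 9, (((1065 : ℝ) / 1000) ^ 2) ^ i / (i.factorial : ℝ) := by
    simp [Finset.sum_range_succ, Nat.factorial]
    norm_num
  have h3 : (31076 : ℝ) / 10000 ≤ Real.exp (((1065 : ℝ) / 1000) ^ 2) := h2.trans h
  rw [Real.exp_neg]
  have h4 : (Real.exp (((1065 : ℝ) / 1000) ^ 2))⁻¹ ≤ ((31076 : ℝ) / 10000)⁻¹ :=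
    inv_anti₀ (by norm_num) h3
  refine h4.trans ?_
  norm_num

lemma hfun_t0 : gphi (1065 / 1000) ^ 2 ≤ 9 / (8 * Real.pi) * gtail (1065 / 1000) := by
  rw [gphi_sq]
  have hpi := Real.pi_pos
  have h1 : Real.exp (-(((1065 : ℝ) / 1000) ^ 2)) / (2 * Real.pi)
      ≤ (3218 / 10000) / (2 * Real.pi) :=
    div_le_div_of_nonneg_right exp_neg_t0sq_le (by positivity)
  have h2 : ((3218 : ℝ) / 10000) / (2 * Real.pi) ≤ 9 / (8 * Real.pi) * (1433 / 10000) := by
    rw [div_le_iff₀ (by positivity)]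
    have e : 9 / (8 * Real.pi) * ((1433 : ℝ) / 10000) * (2 * Real.pi)
        = 9 * 1433 * 2 / (8 * 10000) := by
      field_simp
    rw [e]
    norm_num
  have h3 : 9 / (8 * Real.pi) * ((1433 : ℝ) / 10000)
      ≤ 9 / (8 * Real.pi) * gtail (1065 / 1000) :=
    mul_le_mul_of_nonneg_left gtail_t0_ge (by positivity)
  linarith

lemma gphi_sq_le_of_gtail_le {t : ℝ} (ht : gtail t ≤ 1 / 7) :
    gphi t ^ 2 ≤ 9 / (8 * Real.pi) * gtail t := by
  have ht0 : (1065 : ℝ) / 1000 ≤ t := by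
    by_contra hcon
    rw [not_le] at hcon
    have h1 := gtail_antitone hcon.le
    have h2 := gtail_t0_ge
    have h3 : (1 : ℝ) / 7 < 1433 / 10000 := by norm_num
    linarith
  exact key_tail_ineq (by norm_num) hfun_t0 ht0

theorem small_set_moment {d : ℕ} {A : Set (EuclideanSpace ℝ (Fin d))}
    (hsmall : stdGaussian (EuclideanSpace ℝ (Fin d)) A ≤ 1 / 7) :
    ‖∫ x in A, x ∂(stdGaussian (EuclideanSpace ℝ (Fin d)))‖ ^ 2
      ≤ 9 / (8 * Real.pi) * (stdGaussian (EuclideanSpace ℝ (Fin d))).real A := by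
  have ha7 : (stdGaussian (EuclideanSpace ℝ (Fin d))).real A ≤ 1 / 7 := by
    have h := ENNReal.toReal_mono (by norm_num : (1 / 7 : ENNReal) ≠ ⊤) hsmall
    have e : ((1 / 7 : ENNReal)).toReal = 1 / 7 := by
      rw [ENNReal.toReal_div]
      norm_num
    rw [e] at h
    exact h
  rcases eq_or_lt_of_le
    (measureReal_nonneg : 0 ≤ (stdGaussian (EuclideanSpace ℝ (Fin d))).real A) with h0 | h0
  · have hz : stdGaussian (EuclideanSpace ℝ (Fin d)) A = 0 := by
      have h1 := h0.symm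
      rw [Measure.real, ENNReal.toReal_eq_zero_iff] at h1
      rcases h1 with h | h
      · exact h
      · exact absurd h (measure_ne_top _ _)
    rw [setIntegral_measure_zero _ hz, ← h0]
    simp
  · obtain ⟨t, ht⟩ := exists_gtail_eq h0 (by linarith)
    have h1 := norm_setIntegral_le_gphi (A := A) t ht.symm
    have h2 := gphi_sq_le_of_gtail_le (t := t) (by rw [ht]; exact ha7)
    calc ‖∫ x in A, x ∂(stdGaussian (EuclideanSpace ℝ (Fin d)))‖ ^ 2
        ≤ gphi t ^ 2 := pow_le_pow_left₀ (norm_nonneg _) h1 2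
      _ ≤ 9 / (8 * Real.pi) * gtail t := h2
      _ = 9 / (8 * Real.pi) * (stdGaussian (EuclideanSpace ℝ (Fin d))).real A := by rw [ht]

/-- Total real measure of a finite family with pairwise null intersections is at most one. -/
lemma sum_measureReal_le_one {d k : ℕ} (A : Fin k → Set (EuclideanSpace ℝ (Fin d)))
    (hmeas : ∀ i, MeasurableSet (A i))
    (hdisj : ∀ i j, i ≠ j → stdGaussian (EuclideanSpace ℝ (Fin d)) (A i ∩ A j) = 0) :
    ∑ i, (stdGaussian (EuclideanSpace ℝ (Fin d))).real (A i) ≤ 1 := by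
  have h1 : stdGaussian (EuclideanSpace ℝ (Fin d)) (⋃ i, A i)
      = ∑ i, stdGaussian (EuclideanSpace ℝ (Fin d)) (A i) := by
    rw [measure_iUnion₀ (fun i j hij => hdisj i j hij)
      (fun i => (hmeas i).nullMeasurableSet), tsum_fintype]
  have h2 : ∑ i, (stdGaussian (EuclideanSpace ℝ (Fin d))).real (A i)
      = (stdGaussian (EuclideanSpace ℝ (Fin d))).real (⋃ i, A i) := by
    rw [Measure.real, h1, ENNReal.toReal_sum (fun i _ => measure_ne_top _ _)]
    rfl
  rw [h2]
  exact measureReal_le_one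

end Vale.Agent.Lib.Helper7.Gauss
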