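import Mathlib
import Vale.Agent.Lib.Helper7.GaussTail
import Vale.Agent.Lib.Helper7.GaussMoment

/-!
Centrally symmetric families of first moments: the sharp bound `1 / π`.
-/

namespace Vale.Agent.Lib.Helper7.Gauss

open MeasureTheory ProbabilityTheory Set Filter Topology

/-- The first moment of the reflected set is the negative of the first moment. -/
lemma setIntegral_neg_preimage {d : ℕ} (A : Set (EuclideanSpace ℝ (Fin d))) :
    ∫ x in {x | -x ∈ A}, x ∂(stdGaussian (EuclideanSpace ℝ (Fin d)))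
      = -∫ x in A, x ∂(stdGaussian (EuclideanSpace ℝ (Fin d))) := by
  have hmp : MeasurePreserving (LinearIsometryEquiv.neg ℝ (E := EuclideanSpace ℝ (Fin d)))
      (stdGaussian (EuclideanSpace ℝ (Fin d))) (stdGaussian (EuclideanSpace ℝ (Fin d))) :=
    ⟨(LinearIsometryEquiv.neg ℝ (E := EuclideanSpace ℝ (Fin d))).continuous.measurable,
      stdGaussian_map (LinearIsometryEquiv.neg ℝ (E := EuclideanSpace ℝ (Fin d)))⟩
  have hemb : MeasurableEmbedding (LinearIsometryEquiv.neg ℝ (E := EuclideanSpace ℝ (Fin d))) :=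
    (LinearIsometryEquiv.neg ℝ (E := EuclideanSpace ℝ (Fin d))).toHomeomorph.measurableEmbedding
  have h := hmp.setIntegral_preimage_emb hemb (fun y => -y) A
  have e : {x : EuclideanSpace ℝ (Fin d) | -x ∈ A}
      = (LinearIsometryEquiv.neg ℝ (E := EuclideanSpace ℝ (Fin d))) ⁻¹' A := by
    ext x
    simp
  have h2 : ∫ y in A, -y ∂(stdGaussian (EuclideanSpace ℝ (Fin d)))
      = -∫ y in A, y ∂(stdGaussian (EuclideanSpace ℝ (Fin d))) :=
    integral_neg (fun y : EuclideanSpace ℝ (Fin d) => y)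
  rw [e, ← h2]
  simpa using h

/-- Absolute first moment of a linear functional. -/
lemma integral_abs_inner_le {d : ℕ} (u : EuclideanSpace ℝ (Fin d)) :
    ∫ x, |inner ℝ u x| ∂(stdGaussian (EuclideanSpace ℝ (Fin d))) ≤ 2 * gphi 0 * ‖u‖ := by
  have hint : Integrable (fun x : EuclideanSpace ℝ (Fin d) => x)
      (stdGaussian (EuclideanSpace ℝ (Fin d))) := IsGaussian.integrable_fun_id
  have hL : Integrable (fun x : EuclideanSpace ℝ (Fin d) => inner ℝ u x)
      (stdGaussian (EuclideanSpace ℝ (Fin d))) := hint.const_inner u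
  by_cases hu : u = 0
  · subst hu
    simp
  have hn : 0 < ‖u‖ := norm_pos_iff.mpr hu
  have hv : ‖(‖u‖)⁻¹ • u‖ = 1 := by
    rw [norm_smul, norm_inv, norm_norm]
    exact inv_mul_cancel₀ hn.ne'
  -- split according to the sign of the functional
  have hmeas : MeasurableSet {x : EuclideanSpace ℝ (Fin d) | 0 ≤ inner ℝ u x} :=
    measurableSet_le measurable_const (innerSL ℝ u).continuous.measurable
  have hsplit := integral_add_compl hmeas hL.abs
  have h1 : ∫ x in {x : EuclideanSpace ℝ (Fin d) | 0 ≤ inner ℝ u x}, |inner ℝ u x|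
        ∂(stdGaussian (EuclideanSpace ℝ (Fin d)))
      = inner ℝ u (∫ x in {x : EuclideanSpace ℝ (Fin d) | 0 ≤ inner ℝ u x}, x
        ∂(stdGaussian (EuclideanSpace ℝ (Fin d)))) := by
    rw [← integral_inner hint.integrableOn u]
    apply setIntegral_congr_fun hmeas
    intro x hx
    exact abs_of_nonneg hx
  have h2 : ∫ x in {x : EuclideanSpace ℝ (Fin d) | 0 ≤ inner ℝ u x}ᶜ, |inner ℝ u x|
        ∂(stdGaussian (EuclideanSpace ℝ (Fin d)))
      = inner ℝ (-u) (∫ x in {x : EuclideanSpace ℝ (Fin d) | 0 ≤ inner ℝ u x}ᶜ, x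
        ∂(stdGaussian (EuclideanSpace ℝ (Fin d)))) := by
    rw [← integral_inner hint.integrableOn (-u)]
    apply setIntegral_congr_fun hmeas.compl
    intro x hx
    have hx' : inner ℝ u x < 0 := not_le.mp hx
    simp only [inner_neg_left]
    exact abs_of_neg hx'
  have b1 := inner_setIntegral_le (A := {x : EuclideanSpace ℝ (Fin d) | 0 ≤ inner ℝ u x})
    ((‖u‖)⁻¹ • u) hv 0
  have b2 := inner_setIntegral_le (A := {x : EuclideanSpace ℝ (Fin d) | 0 ≤ inner ℝ u x}ᶜ)
    ((‖u‖)⁻¹ • (-u)) (by rw [smul_neg, norm_neg]; exact hv) 0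
  rw [real_inner_smul_left] at b1 b2
  simp only [zero_mul, sub_zero, add_zero] at b1 b2
  have e1 : inner ℝ u (∫ x in {x : EuclideanSpace ℝ (Fin d) | 0 ≤ inner ℝ u x}, x
        ∂(stdGaussian (EuclideanSpace ℝ (Fin d)))) ≤ gphi 0 * ‖u‖ := by
    have := mul_le_mul_of_nonneg_left b1 hn.le
    rw [← mul_assoc, mul_inv_cancel₀ hn.ne', one_mul] at this
    linarith
  have e2 : inner ℝ (-u) (∫ x in {x : EuclideanSpace ℝ (Fin d) | 0 ≤ inner ℝ u x}ᶜ, x
        ∂(stdGaussian (EuclideanSpace ℝ (Fin d)))) ≤ gphi 0 * ‖u‖ := by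
    have := mul_le_mul_of_nonneg_left b2 hn.le
    rw [← mul_assoc, mul_inv_cancel₀ hn.ne', one_mul] at this
    linarith
  rw [← hsplit, h1, h2]
  linarith

/-- Sign-sum domination: a finite family dominating the absolute values of the functionals
given by the vectors of a finite set, with controlled second moment. -/
lemma exists_sign_family {d k : ℕ} (z : Fin k → EuclideanSpace ℝ (Fin d)) (S : Finset (Fin k)) :
    ∃ (n : ℕ) (u : Fin n → EuclideanSpace ℝ (Fin d)), 0 < n ∧
      (∀ x : EuclideanSpace ℝ (Fin d), ∀ j ∈ S,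
        |inner ℝ (z j) x| * n ≤ ∑ a, |inner ℝ (u a) x|) ∧
      ∑ a, ‖u a‖ ^ 2 = n * ∑ j ∈ S, ‖z j‖ ^ 2 := by
  induction S using Finset.induction_on with
  | empty =>
    refine ⟨1, fun _ => 0, one_pos, ?_, ?_⟩
    · intro x j hj
      simp at hj
    · simp
  | insert j0 S hj0 ih =>
    obtain ⟨n, u, hn, hdom, hsq⟩ := ih
    refine ⟨n + n, Fin.append (fun a => u a + z j0) (fun a => u a - z j0), by omega, ?_, ?_⟩
    · intro x j hj
      rw [Fin.sum_univ_add]
      simp only [Fin.append_left, Fin.append_right]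
      rw [← Finset.sum_add_distrib]
      have key : ∀ a : Fin n, 2 * |inner ℝ (u a) x| ≤
          |inner ℝ (u a + z j0) x| + |inner ℝ (u a - z j0) x| ∧
          2 * |inner ℝ (z j0) x| ≤
          |inner ℝ (u a + z j0) x| + |inner ℝ (u a - z j0) x| := by
        intro a
        rw [inner_add_left, inner_sub_left]
        constructor
        · have h1 := abs_add_le (inner ℝ (u a) x + inner ℝ (z j0) x)
            (inner ℝ (u a) x - inner ℝ (z j0) x)
          have e : inner ℝ (u a) x + inner ℝ (z j0) x + (inner ℝ (u a) x - inner ℝ (z j0) x)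
              = 2 * inner ℝ (u a) x := by ring
          rw [e, abs_mul, abs_two] at h1
          exact h1
        · have h1 := abs_sub (inner ℝ (u a) x + inner ℝ (z j0) x)
            (inner ℝ (u a) x - inner ℝ (z j0) x)
          have e : inner ℝ (u a) x + inner ℝ (z j0) x - (inner ℝ (u a) x - inner ℝ (z j0) x)
              = 2 * inner ℝ (z j0) x := by ring
          rw [e, abs_mul, abs_two] at h1
          exact h1
      rcases Finset.mem_insert.mp hj with rfl | hjS
      · have : ∑ a : Fin n, 2 * |inner ℝ (z j) x|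
            ≤ ∑ a : Fin n, (|inner ℝ (u a + z j) x| + |inner ℝ (u a - z j) x|) :=
          Finset.sum_le_sum fun a _ => (key a).2
        rw [Finset.sum_const, Finset.card_univ, Fintype.card_fin, nsmul_eq_mul] at this
        push_cast
        linarith
      · have h1 : ∑ a : Fin n, 2 * |inner ℝ (u a) x|
            ≤ ∑ a : Fin n, (|inner ℝ (u a + z j0) x| + |inner ℝ (u a - z j0) x|) :=
          Finset.sum_le_sum fun a _ => (key a).1
        rw [← Finset.mul_sum] at h1
        have h2 := hdom x j hjS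
        push_cast
        linarith
    · rw [Fin.sum_univ_add]
      simp only [Fin.append_left, Fin.append_right]
      rw [← Finset.sum_add_distrib, Finset.sum_insert hj0]
      have key : ∀ a : Fin n, ‖u a + z j0‖ ^ 2 + ‖u a - z j0‖ ^ 2
          = 2 * ‖u a‖ ^ 2 + 2 * ‖z j0‖ ^ 2 := by
        intro a
        have := parallelogram_law_with_norm ℝ (u a) (z j0)
        simp only [sq]
        linarith
      simp_rw [key]
      rw [Finset.sum_add_distrib, ← Finset.mul_sum, hsq, Finset.sum_const, Finset.card_univ,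
        Fintype.card_fin, nsmul_eq_mul]
      push_cast
      ring

end Vale.Agent.Lib.Helper7.Gauss

namespace Vale.Agent.Lib.Helper7.Gauss

open MeasureTheory ProbabilityTheory Set Filter Topology

lemma gphi_zero_sq : gphi 0 ^ 2 = 1 / (2 * Real.pi) := by
  unfold gphi
  rw [div_pow, Real.sq_sqrt (by positivity)]
  simp

/-- Families of sets whose first moments are permuted with a sign change by an involution
of the index set: the sum of squared first moments is at most `1 / π`. -/
theorem symmetric_moment_bound {d k : ℕ} (A : Fin k → Set (EuclideanSpace ℝ (Fin d)))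
    (hmeas : ∀ i, MeasurableSet (A i))
    (hdisj : ∀ i j, i ≠ j → stdGaussian (EuclideanSpace ℝ (Fin d)) (A i ∩ A j) = 0)
    (σ : Fin k → Fin k) (hσ : ∀ i, σ (σ i) = i)
    (hz : ∀ i, ∫ x in A (σ i), x ∂(stdGaussian (EuclideanSpace ℝ (Fin d)))
      = -∫ x in A i, x ∂(stdGaussian (EuclideanSpace ℝ (Fin d)))) :
    ∑ i, ‖∫ x in A i, x ∂(stdGaussian (EuclideanSpace ℝ (Fin d)))‖ ^ 2 ≤ 1 / Real.pi := by
  have hint : Integrable (fun x : EuclideanSpace ℝ (Fin d) => x)
      (stdGaussian (EuclideanSpace ℝ (Fin d))) := IsGaussian.integrable_fun_id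
  -- the moment vectors
  obtain ⟨z, hzdef⟩ : ∃ z : Fin k → EuclideanSpace ℝ (Fin d),
      ∀ i, z i = ∫ x in A i, x ∂(stdGaussian (EuclideanSpace ℝ (Fin d))) := ⟨_, fun _ => rfl⟩
  simp_rw [← hzdef] at hz ⊢
  have hfix : ∀ i, σ i = i → z i = 0 := by
    intro i hi
    have h := hz i
    rw [hi] at h
    have h2 : (2 : ℝ) • z i = 0 := by
      rw [two_smul]
      nth_rewrite 2 [h]
      simp
    rcases smul_eq_zero.mp h2 with h3 | h3
    · norm_num at h3
    · exact h3
  have hnorm : ∀ i, ‖z (σ i)‖ = ‖z i‖ := by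
    intro i
    rw [hz i, norm_neg]
  -- representatives
  obtain ⟨n, u, hn, hdom, hsq⟩ := exists_sign_family z (Finset.univ.filter fun j => j < σ j)
  have hnR : (0 : ℝ) < n := by exact_mod_cast hn
  -- the sum over all indices is twice the sum over representatives
  have hF : ∑ i, ‖z i‖ ^ 2 = 2 * ∑ j ∈ Finset.univ.filter (fun j => j < σ j), ‖z j‖ ^ 2 := by
    have h1 : ∀ i, ‖z i‖ ^ 2 = (if i < σ i then ‖z i‖ ^ 2 else 0)
        + (if σ i < i then ‖z i‖ ^ 2 else 0) := by
      intro i
      rcases lt_trichotomy i (σ i) with h | h | h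
      · rw [if_pos h, if_neg (not_lt.mpr h.le), add_zero]
      · rw [if_neg (by rw [← h]; exact lt_irrefl i), if_neg (by rw [← h]; exact lt_irrefl i),
          hfix i h.symm]
        simp
      · rw [if_neg (not_lt.mpr h.le), if_pos h, zero_add]
    have h2 : ∑ i, (if σ i < i then ‖z i‖ ^ 2 else 0)
        = ∑ i, (if i < σ i then ‖z i‖ ^ 2 else 0) := by
      have hinv : Function.Involutive σ := hσ
      have h3 := Equiv.sum_comp hinv.toPerm (fun i => if σ i < i then ‖z i‖ ^ 2 else 0)
      rw [← h3]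
      apply Finset.sum_congr rfl
      intro i _
      simp only [Function.Involutive.coe_toPerm, hσ, hnorm]
    rw [Finset.sum_congr rfl fun i _ => h1 i, Finset.sum_add_distrib, h2, Finset.sum_filter]
    ring
  -- pointwise domination for every index
  have hpt : ∀ i, ∀ x : EuclideanSpace ℝ (Fin d),
      inner ℝ (z i) x * n ≤ ∑ a, |inner ℝ (u a) x| := by
    intro i x
    rcases lt_trichotomy i (σ i) with h | h | h
    · have hm : i ∈ Finset.univ.filter (fun j => j < σ j) := by simp [h]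
      exact (mul_le_mul_of_nonneg_right (le_abs_self _) hnR.le).trans (hdom x i hm)
    · rw [hfix i h.symm]
      simp only [inner_zero_left, zero_mul]
      exact Finset.sum_nonneg fun a _ => abs_nonneg _
    · have hm : σ i ∈ Finset.univ.filter (fun j => j < σ j) := by simp [hσ, h]
      have e : z i = -z (σ i) := by
        have := hz (σ i)
        rw [hσ] at this
        exact this
      rw [e, inner_neg_left]
      exact (mul_le_mul_of_nonneg_right (neg_le_abs _) hnR.le).trans (hdom x (σ i) hm)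
  -- integrability of the dominating function
  have hgint : Integrable (fun x : EuclideanSpace ℝ (Fin d) => ∑ a, |inner ℝ (u a) x|)
      (stdGaussian (EuclideanSpace ℝ (Fin d))) :=
    integrable_finsetSum _ fun a _ => (hint.const_inner (u a)).abs
  have hgnn : ∀ x : EuclideanSpace ℝ (Fin d), 0 ≤ ∑ a, |inner ℝ (u a) x| :=
    fun x => Finset.sum_nonneg fun a _ => abs_nonneg _
  -- each squared moment is an integral over the cell
  have hcell : ∀ i, ‖z i‖ ^ 2 * n
      ≤ ∫ x in A i, (∑ a, |inner ℝ (u a) x|) ∂(stdGaussian (EuclideanSpace ℝ (Fin d))) := by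
    intro i
    have e1 : ‖z i‖ ^ 2 * n
        = ∫ x in A i, inner ℝ (z i) x * n ∂(stdGaussian (EuclideanSpace ℝ (Fin d))) := by
      rw [integral_mul_const, integral_inner hint.integrableOn (z i), ← hzdef i,
        real_inner_self_eq_norm_sq]
    rw [e1]
    exact integral_mono ((hint.const_inner (z i)).mul_const _).integrableOn hgint.integrableOn
      fun x => hpt i x
  -- sum over the cells
  have hsum : ∑ i, ∫ x in A i, (∑ a, |inner ℝ (u a) x|) ∂(stdGaussian (EuclideanSpace ℝ (Fin d)))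
      ≤ ∫ x, (∑ a, |inner ℝ (u a) x|) ∂(stdGaussian (EuclideanSpace ℝ (Fin d))) := by
    have h1 := integral_iUnion_ae (μ := stdGaussian (EuclideanSpace ℝ (Fin d)))
      (f := fun x : EuclideanSpace ℝ (Fin d) => ∑ a, |inner ℝ (u a) x|) (s := A)
      (fun i => (hmeas i).nullMeasurableSet) (fun i j hij => hdisj i j hij) hgint.integrableOn
    rw [tsum_fintype] at h1
    rw [← h1]
    exact setIntegral_le_integral hgint (ae_of_all _ hgnn)
  have htot : ∫ x, (∑ a, |inner ℝ (u a) x|) ∂(stdGaussian (EuclideanSpace ℝ (Fin d)))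
      ≤ ∑ a, 2 * gphi 0 * ‖u a‖ := by
    rw [integral_finsetSum _ fun a _ => (hint.const_inner (u a)).abs]
    exact Finset.sum_le_sum fun a _ => integral_abs_inner_le (u a)
  -- combine
  have hmain : (∑ i, ‖z i‖ ^ 2) * n ≤ 2 * gphi 0 * ∑ a, ‖u a‖ := by
    rw [Finset.sum_mul, Finset.mul_sum]
    exact (Finset.sum_le_sum fun i _ => hcell i).trans (hsum.trans htot)
  have hg0 := gphi_pos 0
  have hr2nn : 0 ≤ ∑ j ∈ Finset.univ.filter (fun j => j < σ j), ‖z j‖ ^ 2 :=
    Finset.sum_nonneg fun j _ => by positivity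
  obtain ⟨r, hr0, hr⟩ : ∃ r : ℝ, 0 ≤ r ∧
      r ^ 2 = ∑ j ∈ Finset.univ.filter (fun j => j < σ j), ‖z j‖ ^ 2 :=
    ⟨Real.sqrt _, Real.sqrt_nonneg _, Real.sq_sqrt hr2nn⟩
  rw [← hr] at hF hsq
  have hamgm : r * ∑ a, ‖u a‖ ≤ n * r ^ 2 := by
    have h1 : ∀ a, r * ‖u a‖ ≤ (‖u a‖ ^ 2 + r ^ 2) / 2 := by
      intro a
      nlinarith [sq_nonneg (r - ‖u a‖)]
    have h2 : ∑ a, r * ‖u a‖ ≤ ∑ a, (‖u a‖ ^ 2 + r ^ 2) / 2 :=
      Finset.sum_le_sum fun a _ => h1 a
    rw [← Finset.mul_sum, ← Finset.sum_div, Finset.sum_add_distrib, hsq, Finset.sum_const,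
      Finset.card_univ, Fintype.card_fin, nsmul_eq_mul] at h2
    linarith
  rw [hF] at hmain ⊢
  -- now: 2 r^2 n ≤ 2 φ(0) Σ‖u‖ and r Σ‖u‖ ≤ n r^2
  have hfin : r ≤ gphi 0 ∨ r = 0 := by
    by_cases hr1 : r = 0
    · exact Or.inr hr1
    · left
      have hrpos : 0 < r := lt_of_le_of_ne hr0 (Ne.symm hr1)
      have h1 : 2 * r ^ 2 * n * r ≤ 2 * gphi 0 * (n * r ^ 2) := by
        calc 2 * r ^ 2 * n * r ≤ 2 * gphi 0 * (∑ a, ‖u a‖) * r :=
              mul_le_mul_of_nonneg_right hmain hr0
          _ = 2 * gphi 0 * (r * ∑ a, ‖u a‖) := by ring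
          _ ≤ 2 * gphi 0 * (n * r ^ 2) :=
              mul_le_mul_of_nonneg_left hamgm (by positivity)
      have h2 : 0 < 2 * n * r ^ 2 := by positivity
      by_contra hcon
      rw [not_le] at hcon
      nlinarith
  have hpi := Real.pi_pos
  rcases hfin with h | h
  · have h3 : r ^ 2 ≤ gphi 0 ^ 2 := pow_le_pow_left₀ hr0 h 2
    rw [gphi_zero_sq] at h3
    have e : (1 : ℝ) / Real.pi = 2 * (1 / (2 * Real.pi)) := by
      field_simp
    rw [e]
    linarith
  · rw [h]
    simp only [ne_eq, OfNat.ofNat_ne_zero, not_false_eq_true, zero_pow, mul_zero]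
    positivity

end Vale.Agent.Lib.Helper7.Gauss
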