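import Mathlib
import Vale.Agent.Lib.Helper7.GaussTail
import Vale.Agent.Lib.Helper7.GaussMoment
import Vale.Agent.Lib.Helper7.GaussSym

/-!
Families of first moments with a threefold rotational symmetry: the sharp bound `9 / (8 π)`.
-/

namespace Vale.Agent.Lib.Helper7.Gauss

open MeasureTheory ProbabilityTheory Set Filter Topology

/-- The first moment of an isometric image is the image of the first moment. -/
lemma setIntegral_image_isometry {d : ℕ}
    (R : EuclideanSpace ℝ (Fin d) ≃ₗᵢ[ℝ] EuclideanSpace ℝ (Fin d))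
    (A : Set (EuclideanSpace ℝ (Fin d))) :
    ∫ x in R '' A, x ∂(stdGaussian (EuclideanSpace ℝ (Fin d)))
      = R (∫ x in A, x ∂(stdGaussian (EuclideanSpace ℝ (Fin d)))) := by
  have hmp : MeasurePreserving R (stdGaussian (EuclideanSpace ℝ (Fin d)))
      (stdGaussian (EuclideanSpace ℝ (Fin d))) :=
    ⟨R.continuous.measurable, stdGaussian_map R⟩
  have hemb : MeasurableEmbedding R := R.toHomeomorph.measurableEmbedding
  rw [hmp.setIntegral_image_emb hemb (fun y => y) A]
  exact R.toLinearIsometry.integral_comp_comm _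

lemma max3_cases (a b c : ℝ) :
    max a (max b c) = a ∨ max a (max b c) = b ∨ max a (max b c) = c := by
  rcases max_choice a (max b c) with h | h
  · left
    exact h
  · rcases max_choice b c with h2 | h2
    · right
      left
      rw [h, h2]
    · right
      right
      rw [h, h2]

lemma max3_shift (a0 a1 a2 b0 b1 b2 : ℝ) (ha : a0 + a1 + a2 = 0) (hb : b0 + b1 + b2 = 0) :
    3 * max a0 (max a1 a2) ≤ max (a0 + b0) (max (a1 + b1) (a2 + b2))
      + max (a0 + b1) (max (a1 + b2) (a2 + b0)) + max (a0 + b2) (max (a1 + b0) (a2 + b1)) ∧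
    3 * max b0 (max b1 b2) ≤ max (a0 + b0) (max (a1 + b1) (a2 + b2))
      + max (a0 + b1) (max (a1 + b2) (a2 + b0)) + max (a0 + b2) (max (a1 + b0) (a2 + b1)) := by
  have t1 : a0 + b0 ≤ max (a0 + b0) (max (a1 + b1) (a2 + b2)) := le_max_left _ _
  have t2 : a1 + b1 ≤ max (a0 + b0) (max (a1 + b1) (a2 + b2)) :=
    le_max_of_le_right (le_max_left _ _)
  have t3 : a2 + b2 ≤ max (a0 + b0) (max (a1 + b1) (a2 + b2)) :=
    le_max_of_le_right (le_max_right _ _)
  have t4 : a0 + b1 ≤ max (a0 + b1) (max (a1 + b2) (a2 + b0)) := le_max_left _ _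
  have t5 : a1 + b2 ≤ max (a0 + b1) (max (a1 + b2) (a2 + b0)) :=
    le_max_of_le_right (le_max_left _ _)
  have t6 : a2 + b0 ≤ max (a0 + b1) (max (a1 + b2) (a2 + b0)) :=
    le_max_of_le_right (le_max_right _ _)
  have t7 : a0 + b2 ≤ max (a0 + b2) (max (a1 + b0) (a2 + b1)) := le_max_left _ _
  have t8 : a1 + b0 ≤ max (a0 + b2) (max (a1 + b0) (a2 + b1)) :=
    le_max_of_le_right (le_max_left _ _)
  have t9 : a2 + b1 ≤ max (a0 + b2) (max (a1 + b0) (a2 + b1)) :=
    le_max_of_le_right (le_max_right _ _)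
  constructor
  · rcases max3_cases a0 a1 a2 with h | h | h <;> rw [h] <;> linarith
  · rcases max3_cases b0 b1 b2 with h | h | h <;> rw [h] <;> linarith

lemma max3_sym_le (y0 y1 y2 : ℝ) :
    max y0 (max y1 y2) + max (-y0) (max (-y1) (-y2))
      ≤ (|y0 - y1| + |y1 - y2| + |y2 - y0|) / 2 := by
  have f1 := le_abs_self (y0 - y1)
  have f2 := neg_abs_le (y0 - y1)
  have f3 := le_abs_self (y1 - y2)
  have f4 := neg_abs_le (y1 - y2)
  have f5 := le_abs_self (y2 - y0)
  have f6 := neg_abs_le (y2 - y0)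
  rcases max3_cases y0 y1 y2 with h | h | h <;>
    rcases max3_cases (-y0) (-y1) (-y2) with h' | h' | h' <;> rw [h, h'] <;> linarith

lemma three_min {α : Type*} [LinearOrder α] (a b c : α) (hab : a ≠ b) (hbc : b ≠ c)
    (hac : a ≠ c) : (a < b ∧ a < c) ∨ (b < c ∧ b < a) ∨ (c < a ∧ c < b) := by
  rcases lt_or_gt_of_ne hab with h1 | h1 <;> rcases lt_or_gt_of_ne hbc with h2 | h2 <;>
    rcases lt_or_gt_of_ne hac with h3 | h3
  · exact Or.inl ⟨h1, h3⟩
  · exact absurd (h1.trans h2) (not_lt.mpr h3.le)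
  · exact Or.inl ⟨h1, h3⟩
  · exact Or.inr (Or.inr ⟨h3, h2⟩)
  · exact Or.inr (Or.inl ⟨h2, h1⟩)
  · exact Or.inr (Or.inl ⟨h2, h1⟩)
  · exact absurd (h2.trans h1) (not_lt.mpr h3.le)
  · exact Or.inr (Or.inr ⟨h3, h2⟩)

/-- The largest of the three functionals given by `u`, `R u`, `R (R u)`. -/
noncomputable def hmax3 {d : ℕ}
    (R : EuclideanSpace ℝ (Fin d) ≃ₗᵢ[ℝ] EuclideanSpace ℝ (Fin d))
    (u x : EuclideanSpace ℝ (Fin d)) : ℝ :=
  max (inner ℝ u x) (max (inner ℝ (R u) x) (inner ℝ (R (R u)) x))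

section

variable {d : ℕ} (R : EuclideanSpace ℝ (Fin d) ≃ₗᵢ[ℝ] EuclideanSpace ℝ (Fin d))
  (hR : ∀ x, x + R x + R (R x) = 0)

include hR

lemma cube_eq (x : EuclideanSpace ℝ (Fin d)) : R (R (R x)) = x := by
  have h1 := hR x
  have h2 := hR (R x)
  have h3 : R (R (R x)) - x = 0 := by
    have : R (R (R x)) - x = (R x + R (R x) + R (R (R x))) - (x + R x + R (R x)) := by abel
    rw [this, h1, h2, sub_zero]
  exact sub_eq_zero.mp h3

lemma inner_sum_zero (u x : EuclideanSpace ℝ (Fin d)) :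
    inner ℝ u x + inner ℝ (R u) x + inner ℝ (R (R u)) x = 0 := by
  rw [← inner_add_left, ← inner_add_left, hR u, inner_zero_left]

lemma hmax3_nonneg (u x : EuclideanSpace ℝ (Fin d)) : 0 ≤ hmax3 R u x := by
  have h := inner_sum_zero R hR u x
  unfold hmax3
  rcases max3_cases (inner ℝ u x) (inner ℝ (R u) x) (inner ℝ (R (R u)) x) with h' | h' | h'
  · have t2 : inner ℝ (R u) x ≤ max (inner ℝ u x) (max (inner ℝ (R u) x) (inner ℝ (R (R u)) x)) :=
      le_max_of_le_right (le_max_left _ _)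
    have t3 : inner ℝ (R (R u)) x
        ≤ max (inner ℝ u x) (max (inner ℝ (R u) x) (inner ℝ (R (R u)) x)) :=
      le_max_of_le_right (le_max_right _ _)
    rw [h'] at t2 t3 ⊢
    linarith
  · have t1 : inner ℝ u x ≤ max (inner ℝ u x) (max (inner ℝ (R u) x) (inner ℝ (R (R u)) x)) :=
      le_max_left _ _
    have t3 : inner ℝ (R (R u)) x
        ≤ max (inner ℝ u x) (max (inner ℝ (R u) x) (inner ℝ (R (R u)) x)) :=
      le_max_of_le_right (le_max_right _ _)
    rw [h'] at t1 t3 ⊢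
    linarith
  · have t1 : inner ℝ u x ≤ max (inner ℝ u x) (max (inner ℝ (R u) x) (inner ℝ (R (R u)) x)) :=
      le_max_left _ _
    have t2 : inner ℝ (R u) x ≤ max (inner ℝ u x) (max (inner ℝ (R u) x) (inner ℝ (R (R u)) x)) :=
      le_max_of_le_right (le_max_left _ _)
    rw [h'] at t1 t2 ⊢
    linarith

lemma norm_sub_rot_sq (u : EuclideanSpace ℝ (Fin d)) : ‖u - R u‖ ^ 2 = 3 * ‖u‖ ^ 2 := by
  have h1 : R (R u) = -(u + R u) := eq_neg_of_add_eq_zero_right (hR u)
  have h2 : ‖R (R u)‖ = ‖u‖ := by rw [R.norm_map, R.norm_map]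
  have h3 : ‖u + R u‖ ^ 2 = ‖u‖ ^ 2 := by
    rw [← h2, h1, norm_neg]
  rw [norm_add_sq_real, R.norm_map] at h3
  rw [norm_sub_sq_real, R.norm_map]
  linarith

lemma hmax3_add_three (u v x : EuclideanSpace ℝ (Fin d)) :
    3 * hmax3 R u x ≤ hmax3 R (u + v) x + hmax3 R (u + R v) x + hmax3 R (u + R (R v)) x ∧
    3 * hmax3 R v x ≤ hmax3 R (u + v) x + hmax3 R (u + R v) x + hmax3 R (u + R (R v)) x := by
  have ha := inner_sum_zero R hR u x
  have hb := inner_sum_zero R hR v x
  have h := max3_shift (inner ℝ u x) (inner ℝ (R u) x) (inner ℝ (R (R u)) x)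
    (inner ℝ v x) (inner ℝ (R v) x) (inner ℝ (R (R v)) x) ha hb
  unfold hmax3
  simp only [map_add, inner_add_left, cube_eq R hR]
  exact h

lemma norm_add_three_sq (u v : EuclideanSpace ℝ (Fin d)) :
    ‖u + v‖ ^ 2 + ‖u + R v‖ ^ 2 + ‖u + R (R v)‖ ^ 2 = 3 * ‖u‖ ^ 2 + 3 * ‖v‖ ^ 2 := by
  have h : inner ℝ u v + inner ℝ u (R v) + inner ℝ u (R (R v)) = 0 := by
    rw [← inner_add_right, ← inner_add_right, hR v, inner_zero_right]
  rw [norm_add_sq_real, norm_add_sq_real, norm_add_sq_real, R.norm_map, R.norm_map, R.norm_map]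
  linarith

/-- Domination by rotated sums. -/
lemma exists_three_family {k : ℕ} (z : Fin k → EuclideanSpace ℝ (Fin d)) (S : Finset (Fin k)) :
    ∃ (n : ℕ) (u : Fin n → EuclideanSpace ℝ (Fin d)), 0 < n ∧
      (∀ x : EuclideanSpace ℝ (Fin d), ∀ j ∈ S,
        hmax3 R (z j) x * n ≤ ∑ a, hmax3 R (u a) x) ∧
      ∑ a, ‖u a‖ ^ 2 = n * ∑ j ∈ S, ‖z j‖ ^ 2 := by
  induction S using Finset.induction_on with
  | empty =>
    refine ⟨1, fun _ => 0, one_pos, ?_, ?_⟩
    · intro x j hj
      simp at hj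
    · simp
  | insert j0 S hj0 ih =>
    obtain ⟨n, u, hn, hdom, hsq⟩ := ih
    refine ⟨n + n + n, Fin.append (Fin.append (fun a => u a + z j0) (fun a => u a + R (z j0)))
      (fun a => u a + R (R (z j0))), by omega, ?_, ?_⟩
    · intro x j hj
      rw [Fin.sum_univ_add]
      simp only [Fin.append_left, Fin.append_right]
      rw [Fin.sum_univ_add]
      simp only [Fin.append_left, Fin.append_right]
      rw [← Finset.sum_add_distrib, ← Finset.sum_add_distrib]
      rcases Finset.mem_insert.mp hj with rfl | hjS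
      · have : ∑ a : Fin n, 3 * hmax3 R (z j) x
            ≤ ∑ a : Fin n, (hmax3 R (u a + z j) x + hmax3 R (u a + R (z j)) x
              + hmax3 R (u a + R (R (z j))) x) :=
          Finset.sum_le_sum fun a _ => (hmax3_add_three R hR (u a) (z j) x).2
        rw [Finset.sum_const, Finset.card_univ, Fintype.card_fin, nsmul_eq_mul] at this
        push_cast
        linarith
      · have h1 : ∑ a : Fin n, 3 * hmax3 R (u a) x
            ≤ ∑ a : Fin n, (hmax3 R (u a + z j0) x + hmax3 R (u a + R (z j0)) x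
              + hmax3 R (u a + R (R (z j0))) x) :=
          Finset.sum_le_sum fun a _ => (hmax3_add_three R hR (u a) (z j0) x).1
        rw [← Finset.mul_sum] at h1
        have h2 := hdom x j hjS
        push_cast
        linarith
    · rw [Fin.sum_univ_add]
      simp only [Fin.append_left, Fin.append_right]
      rw [Fin.sum_univ_add]
      simp only [Fin.append_left, Fin.append_right]
      rw [← Finset.sum_add_distrib, ← Finset.sum_add_distrib, Finset.sum_insert hj0]
      simp_rw [norm_add_three_sq R hR]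
      rw [Finset.sum_add_distrib, ← Finset.mul_sum, hsq, Finset.sum_const, Finset.card_univ,
        Fintype.card_fin, nsmul_eq_mul]
      push_cast
      ring

/-- The mean of the largest of the three functionals. -/
lemma integral_hmax3_le (u : EuclideanSpace ℝ (Fin d)) :
    ∫ x, hmax3 R u x ∂(stdGaussian (EuclideanSpace ℝ (Fin d)))
      ≤ 3 / 2 * gphi 0 * ‖u - R u‖ := by
  have hint : Integrable (fun x : EuclideanSpace ℝ (Fin d) => x)
      (stdGaussian (EuclideanSpace ℝ (Fin d))) := IsGaussian.integrable_fun_id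
  have hI : Integrable (fun x : EuclideanSpace ℝ (Fin d) => hmax3 R u x)
      (stdGaussian (EuclideanSpace ℝ (Fin d))) := by
    unfold hmax3
    exact (hint.const_inner u).sup ((hint.const_inner (R u)).sup (hint.const_inner (R (R u))))
  have hmp : MeasurePreserving (LinearIsometryEquiv.neg ℝ (E := EuclideanSpace ℝ (Fin d)))
      (stdGaussian (EuclideanSpace ℝ (Fin d))) (stdGaussian (EuclideanSpace ℝ (Fin d))) :=
    ⟨(LinearIsometryEquiv.neg ℝ (E := EuclideanSpace ℝ (Fin d))).continuous.measurable,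
      stdGaussian_map (LinearIsometryEquiv.neg ℝ (E := EuclideanSpace ℝ (Fin d)))⟩
  have hemb : MeasurableEmbedding (LinearIsometryEquiv.neg ℝ (E := EuclideanSpace ℝ (Fin d))) :=
    (LinearIsometryEquiv.neg ℝ (E := EuclideanSpace ℝ (Fin d))).toHomeomorph.measurableEmbedding
  have hneg : ∫ x, hmax3 R u (-x) ∂(stdGaussian (EuclideanSpace ℝ (Fin d)))
      = ∫ x, hmax3 R u x ∂(stdGaussian (EuclideanSpace ℝ (Fin d))) := by
    have h := hmp.integral_comp hemb (fun x => hmax3 R u x)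
    simpa using h
  have hInt2 : Integrable (fun x : EuclideanSpace ℝ (Fin d) => hmax3 R u (-x))
      (stdGaussian (EuclideanSpace ℝ (Fin d))) := by
    have h := (hmp.integrable_comp_emb hemb).mpr hI
    simpa [Function.comp_def] using h
  have hD1 : Integrable (fun x : EuclideanSpace ℝ (Fin d) => |inner ℝ (u - R u) x|)
      (stdGaussian (EuclideanSpace ℝ (Fin d))) := (hint.const_inner _).abs
  have hD2 : Integrable (fun x : EuclideanSpace ℝ (Fin d) => |inner ℝ (R u - R (R u)) x|)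
      (stdGaussian (EuclideanSpace ℝ (Fin d))) := (hint.const_inner _).abs
  have hD3 : Integrable (fun x : EuclideanSpace ℝ (Fin d) => |inner ℝ (R (R u) - u) x|)
      (stdGaussian (EuclideanSpace ℝ (Fin d))) := (hint.const_inner _).abs
  have hpt : ∀ x : EuclideanSpace ℝ (Fin d), hmax3 R u x + hmax3 R u (-x)
      ≤ (|inner ℝ (u - R u) x| + |inner ℝ (R u - R (R u)) x| + |inner ℝ (R (R u) - u) x|) / 2 := by
    intro x
    have h := max3_sym_le (inner ℝ u x) (inner ℝ (R u) x) (inner ℝ (R (R u)) x)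
    unfold hmax3
    simp only [inner_neg_right, inner_sub_left]
    exact h
  have hle : ∫ x, (hmax3 R u x + hmax3 R u (-x)) ∂(stdGaussian (EuclideanSpace ℝ (Fin d)))
      ≤ ∫ x, (|inner ℝ (u - R u) x| + |inner ℝ (R u - R (R u)) x| + |inner ℝ (R (R u) - u) x|) / 2
        ∂(stdGaussian (EuclideanSpace ℝ (Fin d))) :=
    integral_mono (hI.add hInt2) (((hD1.add hD2).add hD3).div_const 2) hpt
  have hD12 : Integrable (fun x : EuclideanSpace ℝ (Fin d) =>
      |inner ℝ (u - R u) x| + |inner ℝ (R u - R (R u)) x|)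
      (stdGaussian (EuclideanSpace ℝ (Fin d))) := hD1.add hD2
  rw [integral_add hI hInt2, hneg, integral_div, integral_add hD12 hD3,
    integral_add hD1 hD2] at hle
  have b1 := integral_abs_inner_le (u - R u)
  have b2 := integral_abs_inner_le (R u - R (R u))
  have b3 := integral_abs_inner_le (R (R u) - u)
  have n2 : ‖R u - R (R u)‖ = ‖u - R u‖ := by
    rw [← map_sub, R.norm_map]
  have n3 : ‖R (R u) - u‖ = ‖u - R u‖ := by
    have e : R (R u) - u = R (R (u - R u)) := by
      rw [map_sub, map_sub, cube_eq R hR]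
    rw [e, R.norm_map, R.norm_map]
  rw [n2] at b2
  rw [n3] at b3
  have hg0 := gphi_pos 0
  linarith

end

/-- Families of sets whose first moments are permuted, with a rotation of order three having no
fixed vectors, by a map of order three of the index set: the sum of squared first moments is at
most `9 / (8 π)`. -/
theorem threefold_moment_bound {d k : ℕ} (A : Fin k → Set (EuclideanSpace ℝ (Fin d)))
    (hmeas : ∀ i, MeasurableSet (A i))
    (hdisj : ∀ i j, i ≠ j → stdGaussian (EuclideanSpace ℝ (Fin d)) (A i ∩ A j) = 0)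
    (R : EuclideanSpace ℝ (Fin d) ≃ₗᵢ[ℝ] EuclideanSpace ℝ (Fin d))
    (hR : ∀ x, x + R x + R (R x) = 0)
    (τ : Fin k → Fin k) (hτ : ∀ i, τ (τ (τ i)) = i)
    (hz : ∀ i, ∫ x in A (τ i), x ∂(stdGaussian (EuclideanSpace ℝ (Fin d)))
      = R (∫ x in A i, x ∂(stdGaussian (EuclideanSpace ℝ (Fin d))))) :
    ∑ i, ‖∫ x in A i, x ∂(stdGaussian (EuclideanSpace ℝ (Fin d)))‖ ^ 2
      ≤ 9 / (8 * Real.pi) := by
  have hint : Integrable (fun x : EuclideanSpace ℝ (Fin d) => x)
      (stdGaussian (EuclideanSpace ℝ (Fin d))) := IsGaussian.integrable_fun_id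
  obtain ⟨z, hzdef⟩ : ∃ z : Fin k → EuclideanSpace ℝ (Fin d),
      ∀ i, z i = ∫ x in A i, x ∂(stdGaussian (EuclideanSpace ℝ (Fin d))) := ⟨_, fun _ => rfl⟩
  simp_rw [← hzdef] at hz ⊢
  have hR3 := cube_eq R hR
  have hfix : ∀ i, τ i = i → z i = 0 := by
    intro i hi
    have h := hz i
    rw [hi] at h
    have h3 := hR (z i)
    rw [← h, ← h] at h3
    have h2 : (3 : ℝ) • z i = 0 := by
      rw [show (3 : ℝ) = 1 + 1 + 1 by norm_num, add_smul, add_smul, one_smul]
      exact h3
    rcases smul_eq_zero.mp h2 with h4 | h4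
    · norm_num at h4
    · exact h4
  have hnorm : ∀ i, ‖z (τ i)‖ = ‖z i‖ := by
    intro i
    rw [hz i, R.norm_map]
  have hne2 : ∀ i, τ i ≠ i → τ (τ i) ≠ i := by
    intro i hi h
    apply hi
    have h' := hτ i
    rw [h] at h'
    exact h'
  have hne3 : ∀ i, τ i ≠ i → τ (τ i) ≠ τ i := by
    intro i hi h
    have h' := hτ i
    rw [h] at h'
    exact hne2 i hi h'
  -- representatives
  obtain ⟨n, u, hn, hdom, hsq⟩ := exists_three_family R hR z
    (Finset.univ.filter fun j => j < τ j ∧ j < τ (τ j))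
  have hnR : (0 : ℝ) < n := by exact_mod_cast hn
  -- the sum over all indices is three times the sum over representatives
  have hF : ∑ i, ‖z i‖ ^ 2
      = 3 * ∑ j ∈ Finset.univ.filter (fun j => j < τ j ∧ j < τ (τ j)), ‖z j‖ ^ 2 := by
    have h1 : ∀ i, ‖z i‖ ^ 2 = (if i < τ i ∧ i < τ (τ i) then ‖z i‖ ^ 2 else 0)
        + (if τ i < τ (τ i) ∧ τ i < i then ‖z i‖ ^ 2 else 0)
        + (if τ (τ i) < i ∧ τ (τ i) < τ i then ‖z i‖ ^ 2 else 0) := by
      intro i
      by_cases hi : τ i = i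
      · rw [hfix i hi]
        simp
      · rcases three_min i (τ i) (τ (τ i)) (Ne.symm hi) (Ne.symm (hne3 i hi))
          (Ne.symm (hne2 i hi)) with ⟨a1, a2⟩ | ⟨a1, a2⟩ | ⟨a1, a2⟩
        · rw [if_pos ⟨a1, a2⟩, if_neg (fun h => absurd h.2 (not_lt.mpr a1.le)),
            if_neg (fun h => absurd h.1 (not_lt.mpr a2.le))]
          ring
        · rw [if_neg (fun h => absurd h.1 (not_lt.mpr a2.le)), if_pos ⟨a1, a2⟩,
            if_neg (fun h => absurd h.2 (not_lt.mpr a1.le))]
          ring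
        · rw [if_neg (fun h => absurd h.2 (not_lt.mpr a1.le)),
            if_neg (fun h => absurd h.1 (not_lt.mpr a2.le)), if_pos ⟨a1, a2⟩]
          ring
    let e : Fin k ≃ Fin k := ⟨τ, fun i => τ (τ i), fun i => hτ i, fun i => hτ i⟩
    have h2 : ∑ i, (if τ i < τ (τ i) ∧ τ i < i then ‖z i‖ ^ 2 else 0)
        = ∑ i, (if i < τ i ∧ i < τ (τ i) then ‖z i‖ ^ 2 else 0) := by
      have h3 := Equiv.sum_comp e (fun i => if i < τ i ∧ i < τ (τ i) then ‖z i‖ ^ 2 else 0)
      rw [← h3]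
      apply Finset.sum_congr rfl
      intro i _
      show _ = if τ i < τ (τ i) ∧ τ i < τ (τ (τ i)) then ‖z (τ i)‖ ^ 2 else 0
      rw [hτ i, hnorm i]
    have h4 : ∑ i, (if τ (τ i) < i ∧ τ (τ i) < τ i then ‖z i‖ ^ 2 else 0)
        = ∑ i, (if τ i < τ (τ i) ∧ τ i < i then ‖z i‖ ^ 2 else 0) := by
      have h3 := Equiv.sum_comp e (fun i => if τ i < τ (τ i) ∧ τ i < i then ‖z i‖ ^ 2 else 0)
      rw [← h3]
      apply Finset.sum_congr rfl
      intro i _
      show _ = if τ (τ i) < τ (τ (τ i)) ∧ τ (τ i) < τ i then ‖z (τ i)‖ ^ 2 else 0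
      rw [hτ i, hnorm i]
    rw [Finset.sum_congr rfl fun i _ => h1 i, Finset.sum_add_distrib, Finset.sum_add_distrib,
      h4, h2, Finset.sum_filter]
    ring
  -- pointwise domination for every index
  have hpt : ∀ i, ∀ x : EuclideanSpace ℝ (Fin d),
      inner ℝ (z i) x * n ≤ ∑ a, hmax3 R (u a) x := by
    intro i x
    by_cases hi : τ i = i
    · rw [hfix i hi]
      simp only [inner_zero_left, zero_mul]
      exact Finset.sum_nonneg fun a _ => hmax3_nonneg R hR (u a) x
    · rcases three_min i (τ i) (τ (τ i)) (Ne.symm hi) (Ne.symm (hne3 i hi))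
        (Ne.symm (hne2 i hi)) with ⟨a1, a2⟩ | ⟨a1, a2⟩ | ⟨a1, a2⟩
      · have hm : i ∈ Finset.univ.filter (fun j => j < τ j ∧ j < τ (τ j)) := by
          simp [a1, a2]
        have hle : inner ℝ (z i) x ≤ hmax3 R (z i) x := le_max_left _ _
        exact (mul_le_mul_of_nonneg_right hle hnR.le).trans (hdom x i hm)
      · have hm : τ i ∈ Finset.univ.filter (fun j => j < τ j ∧ j < τ (τ j)) := by
          simp [a1, a2, hτ i]
        have hle : inner ℝ (z i) x ≤ hmax3 R (z (τ i)) x := by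
          rw [hz i]
          unfold hmax3
          rw [hR3]
          exact le_max_of_le_right (le_max_right _ _)
        exact (mul_le_mul_of_nonneg_right hle hnR.le).trans (hdom x (τ i) hm)
      · have hm : τ (τ i) ∈ Finset.univ.filter (fun j => j < τ j ∧ j < τ (τ j)) := by
          simp [a1, a2, hτ i]
        have hle : inner ℝ (z i) x ≤ hmax3 R (z (τ (τ i))) x := by
          rw [hz (τ i), hz i]
          unfold hmax3
          rw [hR3]
          exact le_max_of_le_right (le_max_left _ _)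
        exact (mul_le_mul_of_nonneg_right hle hnR.le).trans (hdom x (τ (τ i)) hm)
  -- integrability of the dominating function
  have hHint : ∀ a, Integrable (fun x : EuclideanSpace ℝ (Fin d) => hmax3 R (u a) x)
      (stdGaussian (EuclideanSpace ℝ (Fin d))) := by
    intro a
    unfold hmax3
    exact (hint.const_inner (u a)).sup
      ((hint.const_inner (R (u a))).sup (hint.const_inner (R (R (u a)))))
  have hgint : Integrable (fun x : EuclideanSpace ℝ (Fin d) => ∑ a, hmax3 R (u a) x)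
      (stdGaussian (EuclideanSpace ℝ (Fin d))) :=
    integrable_finsetSum _ fun a _ => hHint a
  have hgnn : ∀ x : EuclideanSpace ℝ (Fin d), 0 ≤ ∑ a, hmax3 R (u a) x :=
    fun x => Finset.sum_nonneg fun a _ => hmax3_nonneg R hR (u a) x
  -- each squared moment is an integral over the cell
  have hcell : ∀ i, ‖z i‖ ^ 2 * n
      ≤ ∫ x in A i, (∑ a, hmax3 R (u a) x) ∂(stdGaussian (EuclideanSpace ℝ (Fin d))) := by
    intro i
    have e1 : ‖z i‖ ^ 2 * n
        = ∫ x in A i, inner ℝ (z i) x * n ∂(stdGaussian (EuclideanSpace ℝ (Fin d))) := by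
      rw [integral_mul_const, integral_inner hint.integrableOn (z i), ← hzdef i,
        real_inner_self_eq_norm_sq]
    rw [e1]
    exact integral_mono ((hint.const_inner (z i)).mul_const _).integrableOn hgint.integrableOn
      fun x => hpt i x
  -- sum over the cells
  have hsum : ∑ i, ∫ x in A i, (∑ a, hmax3 R (u a) x) ∂(stdGaussian (EuclideanSpace ℝ (Fin d)))
      ≤ ∫ x, (∑ a, hmax3 R (u a) x) ∂(stdGaussian (EuclideanSpace ℝ (Fin d))) := by
    have h1 := integral_iUnion_ae (μ := stdGaussian (EuclideanSpace ℝ (Fin d)))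
      (f := fun x : EuclideanSpace ℝ (Fin d) => ∑ a, hmax3 R (u a) x) (s := A)
      (fun i => (hmeas i).nullMeasurableSet) (fun i j hij => hdisj i j hij) hgint.integrableOn
    rw [tsum_fintype] at h1
    rw [← h1]
    exact setIntegral_le_integral hgint (ae_of_all _ hgnn)
  have htot : ∫ x, (∑ a, hmax3 R (u a) x) ∂(stdGaussian (EuclideanSpace ℝ (Fin d)))
      ≤ ∑ a, 3 / 2 * gphi 0 * ‖u a - R (u a)‖ := by
    rw [integral_finsetSum _ fun a _ => hHint a]
    exact Finset.sum_le_sum fun a _ => integral_hmax3_le R hR (u a)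
  -- combine
  have hmain : (∑ i, ‖z i‖ ^ 2) * n ≤ 3 / 2 * gphi 0 * ∑ a, ‖u a - R (u a)‖ := by
    rw [Finset.sum_mul, Finset.mul_sum]
    exact (Finset.sum_le_sum fun i _ => hcell i).trans (hsum.trans htot)
  have hg0 := gphi_pos 0
  have hFnn : 0 ≤ ∑ i, ‖z i‖ ^ 2 := Finset.sum_nonneg fun j _ => by positivity
  obtain ⟨s, hs0, hs⟩ : ∃ s : ℝ, 0 ≤ s ∧ s ^ 2 = ∑ i, ‖z i‖ ^ 2 :=
    ⟨Real.sqrt _, Real.sqrt_nonneg _, Real.sq_sqrt hFnn⟩
  have hw : ∑ a, ‖u a - R (u a)‖ ^ 2 = n * s ^ 2 := by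
    simp_rw [norm_sub_rot_sq R hR]
    rw [← Finset.mul_sum, hsq, hs, hF]
    ring
  have hamgm : s * ∑ a, ‖u a - R (u a)‖ ≤ n * s ^ 2 := by
    have h1 : ∀ a, s * ‖u a - R (u a)‖ ≤ (‖u a - R (u a)‖ ^ 2 + s ^ 2) / 2 := by
      intro a
      nlinarith [sq_nonneg (s - ‖u a - R (u a)‖)]
    have h2 : ∑ a, s * ‖u a - R (u a)‖ ≤ ∑ a, (‖u a - R (u a)‖ ^ 2 + s ^ 2) / 2 :=
      Finset.sum_le_sum fun a _ => h1 a
    rw [← Finset.mul_sum, ← Finset.sum_div, Finset.sum_add_distrib, hw, Finset.sum_const,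
      Finset.card_univ, Fintype.card_fin, nsmul_eq_mul] at h2
    linarith
  rw [← hs] at hmain ⊢
  have hfin : s ≤ 3 / 2 * gphi 0 ∨ s = 0 := by
    by_cases hs1 : s = 0
    · exact Or.inr hs1
    · left
      have hspos : 0 < s := lt_of_le_of_ne hs0 (Ne.symm hs1)
      have h1 : s ^ 2 * n * s ≤ 3 / 2 * gphi 0 * (n * s ^ 2) := by
        calc s ^ 2 * n * s ≤ 3 / 2 * gphi 0 * (∑ a, ‖u a - R (u a)‖) * s :=
              mul_le_mul_of_nonneg_right hmain hs0
          _ = 3 / 2 * gphi 0 * (s * ∑ a, ‖u a - R (u a)‖) := by ring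
          _ ≤ 3 / 2 * gphi 0 * (n * s ^ 2) :=
              mul_le_mul_of_nonneg_left hamgm (by positivity)
      have h2 : 0 < n * s ^ 2 := by positivity
      by_contra hcon
      rw [not_le] at hcon
      nlinarith
  have hpi := Real.pi_pos
  rcases hfin with h | h
  · have h3 : s ^ 2 ≤ (3 / 2 * gphi 0) ^ 2 := pow_le_pow_left₀ hs0 h 2
    rw [mul_pow, gphi_zero_sq] at h3
    have e : (9 : ℝ) / (8 * Real.pi) = (3 / 2) ^ 2 * (1 / (2 * Real.pi)) := by
      field_simp
      ring
    rw [e]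
    exact h3
  · rw [h]
    simp only [ne_eq, OfNat.ofNat_ne_zero, not_false_eq_true, zero_pow]
    positivity

end Vale.Agent.Lib.Helper7.Gauss
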