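import Mathlib
import Vale.Agent.Lib.Helper7.GaussTail
import Vale.Agent.Lib.Helper7.GaussMoment
import Vale.Agent.Lib.Helper7.GaussCalc
import Vale.Agent.Lib.Helper7.GaussNum

/-!
The squared normal density is at most `81 / 200` times the normal tail, everywhere;
consequence for first moments of arbitrary subsets of Gaussian space.
-/

namespace Vale.Agent.Lib.Helper7.Gauss

open MeasureTheory ProbabilityTheory Set Filter Topology

/-- Degree seven Taylor polynomial of `exp (-u)`. -/
noncomputable def p7 (u : ℝ) : ℝ :=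
  1 - u + u ^ 2 / 2 - u ^ 3 / 6 + u ^ 4 / 24 - u ^ 5 / 120 + u ^ 6 / 720 - u ^ 7 / 5040

lemma exp_neg_bound8 {u : ℝ} (h0 : 0 ≤ u) (h1 : u ≤ 1) :
    |Real.exp (-u) - p7 u| ≤ u ^ 8 / 35840 := by
  have h := Real.exp_bound (x := -u) (by rw [abs_neg, abs_of_nonneg h0]; exact h1)
    (n := 8) (by norm_num)
  have hs : ∑ m ∈ Finset.range 8, (-u) ^ m / (m.factorial : ℝ) = p7 u := by
    unfold p7
    simp [Finset.sum_range_succ, Nat.factorial]
    ring
  rw [hs, abs_neg, abs_of_nonneg h0] at h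
  have he : u ^ 8 * (((Nat.succ 8 : ℕ) : ℝ) / (((Nat.factorial 8 : ℕ) : ℝ) * ((8 : ℕ) : ℝ)))
      = u ^ 8 / 35840 := by
    simp [Nat.factorial]
    ring
  rw [he] at h
  exact h

lemma exp_neg_le8 {u : ℝ} (h0 : 0 ≤ u) (h1 : u ≤ 1) :
    Real.exp (-u) ≤ p7 u + u ^ 8 / 35840 := by
  have h := (abs_le.mp (exp_neg_bound8 h0 h1)).2
  linarith

lemma exp_neg_ge8 {u : ℝ} (h0 : 0 ≤ u) (h1 : u ≤ 1) :
    p7 u - u ^ 8 / 35840 ≤ Real.exp (-u) := by
  have h := (abs_le.mp (exp_neg_bound8 h0 h1)).1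
  linarith

lemma sqrt_two_pi_gt' : (2506628 : ℝ) / 1000000 < Real.sqrt (2 * Real.pi) := by
  apply Real.lt_sqrt_of_sq_lt
  have := Real.pi_gt_d6
  norm_num at this ⊢
  linarith

lemma sqrt_two_pi_lt' : Real.sqrt (2 * Real.pi) < (2506629 : ℝ) / 1000000 := by
  rw [Real.sqrt_lt' (by norm_num)]
  have := Real.pi_lt_d6
  norm_num at this ⊢
  linarith

lemma gphi_antitoneOn : AntitoneOn gphi (Ici 0) := by
  intro x hx y hy hxy
  unfold gphi
  apply div_le_div_of_nonneg_right _ sqrt_two_pi_pos.le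
  apply Real.exp_le_exp.mpr
  have hx0 : (0 : ℝ) ≤ x := hx
  have : x ^ 2 ≤ y ^ 2 := pow_le_pow_left₀ hx0 hxy 2
  linarith

/-- first bracket point: the derivative factor is still below `81 / 200` -/
lemma pfun_s1_lt : 2 * ((61215 : ℝ) / 100000) * gphi (61215 / 100000) < 81 / 200 := by
  have hu := exp_neg_le8 (u := ((61215 : ℝ) / 100000) ^ 2 / 2) (by positivity) (by norm_num)
  have e : gphi (61215 / 100000)
      = Real.exp (-(((61215 : ℝ) / 100000) ^ 2 / 2)) / Real.sqrt (2 * Real.pi) := by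
    unfold gphi
    congr 2
    ring
  rw [e]
  have hs := sqrt_two_pi_gt'
  have h2 : p7 (((61215 : ℝ) / 100000) ^ 2 / 2) + (((61215 : ℝ) / 100000) ^ 2 / 2) ^ 8 / 35840
      < 829143 / 1000000 := by
    unfold p7
    norm_num
  have h3 : Real.exp (-(((61215 : ℝ) / 100000) ^ 2 / 2)) / Real.sqrt (2 * Real.pi)
      < (829143 / 1000000) / (2506628 / 1000000) :=
    div_lt_div₀ (lt_of_le_of_lt hu h2) hs.le (by norm_num) (by norm_num)
  have h4 : 2 * ((61215 : ℝ) / 100000) * ((829143 / 1000000) / (2506628 / 1000000))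
      < 81 / 200 := by norm_num
  nlinarith

/-- second bracket point: the derivative factor is already above `81 / 200` -/
lemma pfun_s2_ge : (81 : ℝ) / 200 ≤ 2 * ((61228 : ℝ) / 100000) * gphi (61228 / 100000) := by
  have hu := exp_neg_ge8 (u := ((61228 : ℝ) / 100000) ^ 2 / 2) (by positivity) (by norm_num)
  have e : gphi (61228 / 100000)
      = Real.exp (-(((61228 : ℝ) / 100000) ^ 2 / 2)) / Real.sqrt (2 * Real.pi) := by
    unfold gphi
    congr 2
    ring
  rw [e]
  have hs := sqrt_two_pi_lt'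
  have h2 : (829076 : ℝ) / 1000000
      < p7 (((61228 : ℝ) / 100000) ^ 2 / 2) - (((61228 : ℝ) / 100000) ^ 2 / 2) ^ 8 / 35840 := by
    unfold p7
    norm_num
  have h3 : ((829076 : ℝ) / 1000000) / (2506629 / 1000000)
      < Real.exp (-(((61228 : ℝ) / 100000) ^ 2 / 2)) / Real.sqrt (2 * Real.pi) :=
    div_lt_div₀ (lt_of_lt_of_le h2 hu) hs.le (Real.exp_pos _).le sqrt_two_pi_pos
  have h4 : (81 : ℝ) / 200
      < 2 * ((61228 : ℝ) / 100000) * ((829076 / 1000000) / (2506629 / 1000000)) := by norm_num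
  nlinarith

lemma gtail_s2_ge : (1 : ℝ) / 2 - (576084 / 1000000) / (2506628 / 1000000)
    ≤ gtail (61228 / 100000) := by
  have h := gtail_ge_of (t := 61228 / 100000) (by norm_num) (by norm_num)
  have hr : rup (61228 / 100000) ≤ 576084 / 1000000 := by
    unfold rup
    norm_num
  have h1 : rup (61228 / 100000) / Real.sqrt (2 * Real.pi)
      ≤ (576084 / 1000000) / (2506628 / 1000000) :=
    div_le_div₀ (by norm_num) hr (by norm_num) sqrt_two_pi_gt'.le
  linarith

lemma two_pi_gt : ((2506628 : ℝ) / 1000000) ^ 2 < 2 * Real.pi := by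
  have := Real.pi_gt_d6
  norm_num at this ⊢
  linarith

/-- the cross inequality at the bracket -/
lemma cross_s1_s2 : gphi (61215 / 100000) ^ 2 ≤ 81 / 200 * gtail (61228 / 100000) := by
  rw [gphi_sq]
  have hu := exp_neg_le8 (u := ((61215 : ℝ) / 100000) ^ 2) (by positivity) (by norm_num)
  have h2 : p7 (((61215 : ℝ) / 100000) ^ 2) + (((61215 : ℝ) / 100000) ^ 2) ^ 8 / 35840
      < 687477 / 1000000 := by
    unfold p7
    norm_num
  have h3 : Real.exp (-(((61215 : ℝ) / 100000) ^ 2)) / (2 * Real.pi)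
      < (687477 / 1000000) / (((2506628 : ℝ) / 1000000) ^ 2) :=
    div_lt_div₀ (lt_of_le_of_lt hu h2) two_pi_gt.le (by norm_num) (by norm_num)
  have h4 : ((687477 : ℝ) / 1000000) / (((2506628 : ℝ) / 1000000) ^ 2)
      ≤ 81 / 200 * ((1 : ℝ) / 2 - (576084 / 1000000) / (2506628 / 1000000)) := by norm_num
  have h5 := gtail_s2_ge
  nlinarith

lemma hfun_one : gphi 1 ^ 2 ≤ 81 / 200 * gtail 1 := by
  rw [gphi_sq]
  have h := gtail_ge_of (t := 1) (by norm_num) (by norm_num)
  have hr : rup 1 ≤ 8557 / 10000 := by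
    unfold rup
    norm_num
  have h1 : rup 1 / Real.sqrt (2 * Real.pi) ≤ (8557 / 10000) / (2506628 / 1000000) :=
    div_le_div₀ (by norm_num) hr (by norm_num) sqrt_two_pi_gt'.le
  have he : Real.exp (-((1 : ℝ) ^ 2)) ≤ 37 / 100 := by
    have h2 := Real.exp_one_gt_d9
    rw [one_pow, Real.exp_neg]
    have h2' : (2718 : ℝ) / 1000 ≤ Real.exp 1 := by
      norm_num at h2 ⊢
      linarith
    have h3 : (Real.exp 1)⁻¹ ≤ ((2718 : ℝ) / 1000)⁻¹ := inv_anti₀ (by norm_num) h2'
    refine h3.trans ?_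
    norm_num
  have h3 : Real.exp (-((1 : ℝ) ^ 2)) / (2 * Real.pi) ≤ (37 / 100) / 6 := by
    have := Real.pi_gt_three
    exact div_le_div₀ (by norm_num) he (by norm_num) (by linarith)
  have h4 : ((37 : ℝ) / 100) / 6
      ≤ 81 / 200 * ((1 : ℝ) / 2 - (8557 / 10000) / (2506628 / 1000000)) := by norm_num
  nlinarith

/-- The squared standard normal density is at most `81 / 200` times the upper tail. -/
theorem gphi_sq_le_univ (t : ℝ) : gphi t ^ 2 ≤ 81 / 200 * gtail t := by
  rcases le_total 1 t with h1 | h1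
  · exact key_tail_ineq (le_refl 1) hfun_one h1
  rcases le_total t (61215 / 100000) with hs1 | hs1
  · have hanti : AntitoneOn (fun u => 81 / 200 * gtail u - gphi u ^ 2) (Iic (61215 / 100000)) := by
      apply antitoneOn_of_deriv_nonpos (convex_Iic _) (continuous_hfun _).continuousOn
      · exact fun x _ => (hasDerivAt_hfun _ x).differentiableAt.differentiableWithinAt
      · intro x hx
        rw [interior_Iic] at hx
        rw [(hasDerivAt_hfun _ x).deriv]
        have hxs : x < 61215 / 100000 := hx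
        have hp : 2 * x * gphi x < 81 / 200 := by
          rcases le_total x 0 with hx0 | hx0
          · have := gphi_pos x
            nlinarith
          · have hm := pfun_monotoneOn (a := x) (b := 61215 / 100000)
              ⟨hx0, by linarith⟩ ⟨by norm_num, by norm_num⟩ hxs.le
            have := pfun_s1_lt
            simp only at hm
            linarith
        exact mul_nonpos_of_nonneg_of_nonpos (gphi_pos x).le (by linarith)
    have h := hanti (mem_Iic.mpr hs1) (mem_Iic.mpr le_rfl) hs1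
    simp only at h
    have h2 := cross_s1_s2
    have h3 : gtail (61228 / 100000) ≤ gtail (61215 / 100000) :=
      gtail_antitone (by norm_num)
    linarith
  rcases le_total t (61228 / 100000) with hs2 | hs2
  · have h2 := cross_s1_s2
    have h3 : gtail (61228 / 100000) ≤ gtail t := gtail_antitone hs2
    have h4 : gphi t ≤ gphi (61215 / 100000) :=
      gphi_antitoneOn (mem_Ici.mpr (by norm_num)) (mem_Ici.mpr (by linarith)) hs1
    have h5 : gphi t ^ 2 ≤ gphi (61215 / 100000) ^ 2 :=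
      pow_le_pow_left₀ (gphi_pos t).le h4 2
    linarith
  · have hmono : MonotoneOn (fun u => 81 / 200 * gtail u - gphi u ^ 2)
        (Icc (61228 / 100000) t) := by
      apply monotoneOn_of_deriv_nonneg (convex_Icc _ _) (continuous_hfun _).continuousOn
      · exact fun x _ => (hasDerivAt_hfun _ x).differentiableAt.differentiableWithinAt
      · intro x hx
        rw [interior_Icc] at hx
        rw [(hasDerivAt_hfun _ x).deriv]
        have hm := pfun_monotoneOn (a := 61228 / 100000) (b := x)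
          ⟨by norm_num, by norm_num⟩ ⟨by linarith [hx.1], by linarith [hx.2]⟩ hx.1.le
        have := pfun_s2_ge
        simp only at hm
        exact mul_nonneg (gphi_pos x).le (by linarith)
    have h := hmono (left_mem_Icc.mpr hs2) (right_mem_Icc.mpr hs2) hs2
    simp only at h
    have h2 := cross_s1_s2
    have h4 : gphi (61228 / 100000) ≤ gphi (61215 / 100000) :=
      gphi_antitoneOn (mem_Ici.mpr (by norm_num)) (mem_Ici.mpr (by norm_num)) (by norm_num)
    have h5 : gphi (61228 / 100000) ^ 2 ≤ gphi (61215 / 100000) ^ 2 :=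
      pow_le_pow_left₀ (gphi_pos _).le h4 2
    linarith

lemma norm_setIntegral_le_gphi_zero {d : ℕ} {A : Set (EuclideanSpace ℝ (Fin d))} :
    ‖∫ x in A, x ∂(stdGaussian (EuclideanSpace ℝ (Fin d)))‖ ≤ gphi 0 := by
  by_cases h0 : (∫ x in A, x ∂(stdGaussian (EuclideanSpace ℝ (Fin d)))) = 0
  · rw [h0, norm_zero]
    exact (gphi_pos 0).le
  · have hn : 0 < ‖∫ x in A, x ∂(stdGaussian (EuclideanSpace ℝ (Fin d)))‖ :=
      norm_pos_iff.mpr h0
    have h := inner_setIntegral_le (A := A)
      ((‖∫ x in A, x ∂(stdGaussian (EuclideanSpace ℝ (Fin d)))‖)⁻¹ •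
        ∫ x in A, x ∂(stdGaussian (EuclideanSpace ℝ (Fin d))))
      (by rw [norm_smul, norm_inv, norm_norm]; exact inv_mul_cancel₀ hn.ne') 0
    rw [real_inner_smul_left, real_inner_self_eq_norm_sq] at h
    have e : (‖∫ x in A, x ∂(stdGaussian (EuclideanSpace ℝ (Fin d)))‖)⁻¹ *
        ‖∫ x in A, x ∂(stdGaussian (EuclideanSpace ℝ (Fin d)))‖ ^ 2
        = ‖∫ x in A, x ∂(stdGaussian (EuclideanSpace ℝ (Fin d)))‖ := by
      field_simp
    rw [e] at h
    linarith

/-- Every set has squared Gaussian first moment at most `81 / 200` times its measure. -/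
theorem set_moment_univ {d : ℕ} (A : Set (EuclideanSpace ℝ (Fin d))) :
    ‖∫ x in A, x ∂(stdGaussian (EuclideanSpace ℝ (Fin d)))‖ ^ 2
      ≤ 81 / 200 * (stdGaussian (EuclideanSpace ℝ (Fin d))).real A := by
  rcases eq_or_lt_of_le
    (measureReal_nonneg : 0 ≤ (stdGaussian (EuclideanSpace ℝ (Fin d))).real A) with h0 | h0
  · have hz : stdGaussian (EuclideanSpace ℝ (Fin d)) A = 0 := by
      have h1 := h0.symm
      rw [Measure.real, ENNReal.toReal_eq_zero_iff] at h1
      rcases h1 with h | h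
      · exact h
      · exact absurd h (measure_ne_top _ _)
    rw [setIntegral_measure_zero _ hz, ← h0]
    simp
  rcases eq_or_lt_of_le
    (measureReal_le_one : (stdGaussian (EuclideanSpace ℝ (Fin d))).real A ≤ 1) with h1 | h1
  · rw [h1]
    have h2 := norm_setIntegral_le_gphi_zero (A := A)
    have h3 : ‖∫ x in A, x ∂(stdGaussian (EuclideanSpace ℝ (Fin d)))‖ ^ 2 ≤ gphi 0 ^ 2 :=
      pow_le_pow_left₀ (norm_nonneg _) h2 2
    have h4 : gphi 0 ^ 2 ≤ 81 / 200 * 1 := by
      rw [gphi_sq]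
      have := Real.pi_gt_three
      have e : Real.exp (-((0 : ℝ) ^ 2)) = 1 := by simp
      rw [e, div_le_iff₀ (by positivity)]
      linarith
    linarith
  · obtain ⟨t, ht⟩ := exists_gtail_eq h0 h1
    have h2 := norm_setIntegral_le_gphi (A := A) t ht.symm
    calc ‖∫ x in A, x ∂(stdGaussian (EuclideanSpace ℝ (Fin d)))‖ ^ 2
        ≤ gphi t ^ 2 := pow_le_pow_left₀ (norm_nonneg _) h2 2
      _ ≤ 81 / 200 * gtail t := gphi_sq_le_univ t
      _ = 81 / 200 * (stdGaussian (EuclideanSpace ℝ (Fin d))).real A := by rw [ht]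

end Vale.Agent.Lib.Helper7.Gauss
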